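import Vale.Agent.P157.Lim.Calc

/-! Gaussian interpolation of functionals that also depend on the interpolation parameter. -/

open MeasureTheory ProbabilityTheory Set Filter Asymptotics
open scoped Topology
open Vale.Agent.P150 (gauss dot l1 gauss_ibp integrable_of_bound abs_dot_le l1_nonneg abs_le_l1)
open Vale.Agent.P157.Lim

namespace Vale.Agent.P157.RS

set_option linter.unusedSectionVars false

variable {S ι κ : Type*} [Fintype S] [Fintype ι] [Fintype κ]

/-- a differentiable curve through a function of two variables with continuous time derivative -/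
lemma hasDerivAt_curve {P Ps : ℝ → ℝ → ℝ} {v : ℝ → ℝ} {v' pv τ : ℝ} {U : Set ℝ} (hU : U ∈ 𝓝 τ)
    (hs : ∀ t ∈ U, ∀ w, HasDerivAt (fun t => P t w) (Ps t w) t)
    (hc : ContinuousAt (fun p : ℝ × ℝ => Ps p.1 p.2) (τ, v τ))
    (hv : HasDerivAt v v' τ) (hp : HasDerivAt (P τ) pv (v τ)) :
    HasDerivAt (fun x => P x (v x)) (Ps τ (v τ) + pv * v') τ := by
  have h1 : HasDerivAt (fun x => P τ (v x)) (pv * v') τ := hp.comp τ hv
  have h2 : HasDerivAt (fun x => P x (v x) - P τ (v x)) (Ps τ (v τ)) τ := by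
    rw [hasDerivAt_iff_isLittleO, isLittleO_iff]
    intro ε hε
    obtain ⟨d, hd, hball⟩ := Metric.continuousAt_iff.1 hc ε hε
    obtain ⟨r, hr, hrU⟩ := Metric.mem_nhds_iff.1 hU
    have hvc := hv.continuousAt
    filter_upwards [Metric.ball_mem_nhds τ (lt_min hd hr),
      hvc (Metric.ball_mem_nhds (v τ) hd)] with x hx hvx
    rw [Metric.mem_ball] at hx
    have key := (convex_ball τ (min d r)).norm_image_sub_le_of_norm_hasDerivWithin_le
      (f := fun t => P t (v x) - t * Ps τ (v τ)) (f' := fun t => Ps t (v x) - Ps τ (v τ)) (C := ε)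
      (fun t ht => (((hs t (hrU (Metric.ball_subset_ball (min_le_right _ _) ht)) (v x)).sub
        ((hasDerivAt_id' t).mul_const _)).congr_deriv (by ring)).hasDerivWithinAt)
      (fun t ht => by
        have : dist ((t, v x) : ℝ × ℝ) (τ, v τ) < d := by
          rw [Prod.dist_eq]
          exact max_lt (lt_of_lt_of_le (Metric.mem_ball.1 ht) (min_le_left _ _)) (Metric.mem_ball.1 hvx)
        rw [← dist_eq_norm]
        exact (hball this).le)
      (Metric.mem_ball_self (lt_min hd hr)) (Metric.mem_ball.2 hx)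
    refine le_trans (le_of_eq ?_) key
    simp only [sub_self, sub_zero, smul_eq_mul, Real.norm_eq_abs]
    congr 1; ring
  exact (h2.add h1).congr_of_eventuallyEq (Eventually.of_forall fun x => by simp)

/-- continuous in both arguments and bounded -/
def BdT (F : ℝ → (S → ℝ) → ℝ) : Prop :=
  Continuous (fun p : ℝ × (S → ℝ) => F p.1 p.2) ∧ ∃ C, ∀ s z, |F s z| ≤ C

lemma BdT.bd {F : ℝ → (S → ℝ) → ℝ} (h : BdT F) (s : ℝ) : Bd (F s) := by
  obtain ⟨hc, C, hC⟩ := h
  exact ⟨hc.comp (continuous_const.prodMk continuous_id), C, hC s⟩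

lemma BdT.const (c : ℝ) : BdT (fun (_ : ℝ) (_ : S → ℝ) => c) := ⟨continuous_const, |c|, fun _ _ => le_rfl⟩

lemma BdT.add {F G : ℝ → (S → ℝ) → ℝ} (hF : BdT F) (hG : BdT G) : BdT (fun s z => F s z + G s z) := by
  obtain ⟨hf, C, hC⟩ := hF
  obtain ⟨hg, E, hE⟩ := hG
  exact ⟨hf.add hg, C + E, fun s z => (abs_add_le _ _).trans (add_le_add (hC s z) (hE s z))⟩

lemma BdT.mul {F G : ℝ → (S → ℝ) → ℝ} (hF : BdT F) (hG : BdT G) : BdT (fun s z => F s z * G s z) := by
  obtain ⟨hf, C, hC⟩ := hF
  obtain ⟨hg, E, hE⟩ := hG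
  exact ⟨hf.mul hg, C * E, fun s z => by
    rw [abs_mul]
    exact mul_le_mul (hC s z) (hE s z) (abs_nonneg _) ((abs_nonneg _).trans (hC s z))⟩

lemma BdT.sub {F G : ℝ → (S → ℝ) → ℝ} (hF : BdT F) (hG : BdT G) : BdT (fun s z => F s z - G s z) := by
  simpa [sub_eq_add_neg] using hF.add ((BdT.const (-1)).mul hG)

lemma BdT.sum {α : Type*} (A : Finset α) {F : α → ℝ → (S → ℝ) → ℝ} (hF : ∀ i ∈ A, BdT (F i)) :
    BdT (fun s z => ∑ i ∈ A, F i s z) := by
  classical
  induction A using Finset.induction with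
  | empty => simpa using BdT.const (S := S) 0
  | insert a A ha ih =>
    simp only [Finset.sum_insert ha]
    exact (hF a (Finset.mem_insert_self _ _)).add (ih fun i hi => hF i (Finset.mem_insert_of_mem hi))

lemma BdT.prod {α : Type*} (A : Finset α) {F : α → ℝ → (S → ℝ) → ℝ} (hF : ∀ i ∈ A, BdT (F i)) :
    BdT (fun s z => ∏ i ∈ A, F i s z) := by
  classical
  induction A using Finset.induction with
  | empty => simpa using BdT.const (S := S) 1
  | insert a A ha ih =>
    simp only [Finset.prod_insert ha]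
    exact (hF a (Finset.mem_insert_self _ _)).mul (ih fun i hi => hF i (Finset.mem_insert_of_mem hi))

/-- `Ht` and `H1` are the time derivative and the gradient of `H`, along every curve, for times in `(0,1)` -/
def DerT (H Ht : ℝ → (S → ℝ) → ℝ) (H1 : S → ℝ → (S → ℝ) → ℝ) : Prop :=
  ∀ (c : ℝ → S → ℝ) (c' : S → ℝ) (τ : ℝ), τ ∈ Ioo (0:ℝ) 1 →
    (∀ s, HasDerivAt (fun x => c x s) (c' s) τ) →
    HasDerivAt (fun x => H x (c x)) (Ht τ (c τ) + ∑ v, H1 v τ (c τ) * c' v) τ

variable (a : S → ι → ℝ) (b : S → κ → ℝ)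

/-- at most linear growth -/
def Lin (H : ℝ → (S → ℝ) → ℝ) : Prop :=
  Continuous (fun p : ℝ × (S → ℝ) => H p.1 p.2) ∧ ∃ C, ∀ s z, |H s z| ≤ C * (1 + ∑ v, |z v|)

lemma BdT.lin {F : ℝ → (S → ℝ) → ℝ} (h : BdT F) : Lin F := by
  obtain ⟨hc, C, hC⟩ := h
  exact ⟨hc, C, fun s z => (hC s z).trans (le_mul_of_one_le_right ((abs_nonneg _).trans (hC s z))
    (le_add_of_nonneg_right (Finset.sum_nonneg fun _ _ => abs_nonneg _)))⟩

/-- a bound for the coefficient vectors on `[0,1]` -/
def bnd (v : S) : ℝ := ∑ i, |a v i| + ∑ j, |b v j|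

lemma bnd_nonneg (v : S) : 0 ≤ bnd a b v :=
  add_nonneg (Finset.sum_nonneg fun _ _ => abs_nonneg _) (Finset.sum_nonneg fun _ _ => abs_nonneg _)

lemma abs_cvec_le {t : ℝ} (ht : t ∈ Icc (0:ℝ) 1) (v : S) (k : ι ⊕ κ) :
    |cvec a b t v k| ≤ bnd a b v := by
  have n0 : 0 ≤ ∑ i, |a v i| := Finset.sum_nonneg fun _ _ => abs_nonneg _
  have n1 : 0 ≤ ∑ j, |b v j| := Finset.sum_nonneg fun _ _ => abs_nonneg _
  rcases k with i | j <;> simp only [cvec, Sum.elim_inl, Sum.elim_inr, abs_mul,
    abs_of_nonneg (Real.sqrt_nonneg _), bnd]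
  · exact (mul_le_of_le_one_left (abs_nonneg _) (Real.sqrt_le_one.2 ht.2)).trans
      ((Finset.single_le_sum (f := fun i => |a v i|) (fun _ _ => abs_nonneg _) (Finset.mem_univ i)).trans
        (le_add_of_nonneg_right n1))
  · exact (mul_le_of_le_one_left (abs_nonneg _) (Real.sqrt_le_one.2 (by linarith [ht.1]))).trans
      ((Finset.single_le_sum (f := fun j => |b v j|) (fun _ _ => abs_nonneg _) (Finset.mem_univ j)).trans
        (le_add_of_nonneg_left n0))

lemma integrable_l1 : Integrable (fun g : ι ⊕ κ → ℝ => l1 g) (gauss (ι ⊕ κ)) :=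
  integrable_of_bound (C := 1) (M := 1) (by unfold l1; fun_prop) fun g => by
    rw [abs_of_nonneg (l1_nonneg g), one_mul, one_mul]
    linarith [Real.add_one_le_exp (l1 g)]

lemma lin_bound {H : ℝ → (S → ℝ) → ℝ} (hH : Lin H) :
    ∃ C, ∀ (s : ℝ), ∀ t ∈ Icc (0:ℝ) 1, ∀ g : ι ⊕ κ → ℝ, |H s (field a b t g)| ≤ C * (1 + l1 g) := by
  obtain ⟨hc, C, hC⟩ := hH
  refine ⟨C * (1 + ∑ v, bnd a b v), fun s t ht g => (hC s _).trans ?_⟩
  have hC0 : 0 ≤ C := by simpa using (abs_nonneg _).trans (hC 0 0)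
  rw [mul_assoc]
  refine mul_le_mul_of_nonneg_left ?_ hC0
  have : ∑ v, |field a b t g v| ≤ (∑ v, bnd a b v) * l1 g := by
    rw [Finset.sum_mul]
    exact Finset.sum_le_sum fun v _ => abs_dot_le (fun k => abs_cvec_le a b ht v k) g
  nlinarith [l1_nonneg g, Finset.sum_nonneg (s := Finset.univ) (fun v _ => bnd_nonneg a b v)]

lemma integrable_lin {H : ℝ → (S → ℝ) → ℝ} (hH : Lin H) (s : ℝ) {t : ℝ} (ht : t ∈ Icc (0:ℝ) 1) :
    Integrable (fun g => H s (field a b t g)) (gauss (ι ⊕ κ)) := by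
  obtain ⟨C, hC⟩ := lin_bound a b hH
  exact (((integrable_const (1:ℝ)).add integrable_l1).const_mul C).mono'
    (hH.1.comp (continuous_const.prodMk (continuous_field a b t))).aestronglyMeasurable
    (Eventually.of_forall fun g => hC s t ht g)

lemma continuousOn_lin {H : ℝ → (S → ℝ) → ℝ} (hH : Lin H) :
    ContinuousOn (fun t => ∫ g, H t (field a b t g) ∂gauss (ι ⊕ κ)) (Icc 0 1) := by
  obtain ⟨C, hC⟩ := lin_bound a b hH
  refine continuousOn_of_dominated (bound := fun g => C * (1 + l1 g))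
    (fun t _ => (hH.1.comp (continuous_const.prodMk (continuous_field a b t))).aestronglyMeasurable)
    (fun t ht => Eventually.of_forall fun g => hC t t ht g)
    (((integrable_const (1:ℝ)).add integrable_l1).const_mul C)
    (Eventually.of_forall fun g =>
      (hH.1.comp (continuous_id.prodMk (continuous_field' a b g))).continuousOn)

lemma interpT {H Ht : ℝ → (S → ℝ) → ℝ} {H1 : S → ℝ → (S → ℝ) → ℝ} {H2 : S → S → ℝ → (S → ℝ) → ℝ}
    (hH : Lin H) (hd : DerT H Ht H1) (hHt : BdT Ht) (hH1 : ∀ v, BdT (H1 v))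
    (hd1 : ∀ s v, Der (H1 v s) (fun u => H2 v u s)) (hH2 : ∀ v u, BdT (H2 v u)) {t : ℝ}
    (h0 : 0 < t) (h1 : t < 1) :
    HasDerivAt (fun x => ∫ g, H x (field a b x g) ∂gauss (ι ⊕ κ))
      ((∫ g, Ht t (field a b t g) ∂gauss (ι ⊕ κ)) +
        1 / 2 * ∑ v, ∑ u, dcov a b u v * ∫ g, H2 v u t (field a b t g) ∂gauss (ι ⊕ κ)) t := by
  classical
  obtain ⟨Ct, hCt⟩ := hHt.2
  choose C1 hC1 using fun v => (hH1 v).2
  have hC10 : ∀ v, 0 ≤ C1 v := fun v => (abs_nonneg _).trans (hC1 v 0 0)
  set r : ℝ := min t (1 - t) / 2 with hr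
  have hr0 : 0 < r := by have := lt_min h0 (show 0 < 1 - t by linarith); positivity
  have hball : ∀ x ∈ Metric.ball t r, r ≤ x ∧ r ≤ 1 - x := by
    intro x hx
    rw [Metric.mem_ball, Real.dist_eq, abs_lt] at hx
    have e1 : min t (1 - t) ≤ t := min_le_left _ _
    have e2 : min t (1 - t) ≤ 1 - t := min_le_right _ _
    constructor <;> linarith
  set F' : ℝ → (ι ⊕ κ → ℝ) → ℝ := fun x g =>
    Ht x (field a b x g) + ∑ v, H1 v x (field a b x g) * dot (dvec a b x v) g with hF'
  set E : S → ℝ := fun v => bnd a b v * (1 / (2 * √r))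
  have hdv : ∀ x ∈ Metric.ball t r, ∀ v k, |dvec a b x v k| ≤ E v := by
    intro x hx v k
    obtain ⟨hx0, hx1⟩ := hball x hx
    have p0 : (0:ℝ) < √r := Real.sqrt_pos.2 hr0
    have n0 : 0 ≤ ∑ i, |a v i| := Finset.sum_nonneg fun _ _ => abs_nonneg _
    have n1 : 0 ≤ ∑ j, |b v j| := Finset.sum_nonneg fun _ _ => abs_nonneg _
    rcases k with i | j
    · have hi : |a v i| ≤ ∑ i, |a v i| :=
        Finset.single_le_sum (f := fun i => |a v i|) (fun _ _ => abs_nonneg _) (Finset.mem_univ i)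
      simp only [dvec, Sum.elim_inl, abs_mul, E, bnd]
      rw [abs_of_nonneg (show 0 ≤ 1 / (2 * √x) by positivity)]
      exact mul_le_mul (by linarith) (by gcongr) (by positivity) (by positivity)
    · have hj : |b v j| ≤ ∑ j, |b v j| :=
        Finset.single_le_sum (f := fun j => |b v j|) (fun _ _ => abs_nonneg _) (Finset.mem_univ j)
      simp only [dvec, Sum.elim_inr, abs_mul, E, bnd]
      rw [neg_div, abs_neg, abs_of_nonneg (show 0 ≤ 1 / (2 * √(1 - x)) by positivity)]
      exact mul_le_mul (by linarith) (by gcongr) (by positivity) (by positivity)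
  have key := (hasDerivAt_integral_of_dominated_loc_of_deriv_le
    (F := fun x g => H x (field a b x g)) (F' := F')
    (bound := fun g => Ct + (∑ v, C1 v * E v) * l1 g)
    (Metric.ball_mem_nhds t hr0)
    (Eventually.of_forall fun x =>
      (hH.1.comp (continuous_const.prodMk (continuous_field a b x))).aestronglyMeasurable)
    (integrable_lin a b hH t (Ioo_subset_Icc_self ⟨h0, h1⟩))
    (((hHt.bd t).1.comp (continuous_field a b t)).add (continuous_finsetSum _ fun v _ =>
      (((hH1 v).bd t).1.comp (continuous_field a b t)).mul (by unfold dot; fun_prop))).aestronglyMeasurable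
    (Eventually.of_forall fun g x hx => by
      rw [Real.norm_eq_abs, Finset.sum_mul]
      refine (abs_add_le _ _).trans (add_le_add (hCt _ _) ((Finset.abs_sum_le_sum_abs _ _).trans
        (Finset.sum_le_sum fun v _ => ?_)))
      rw [abs_mul, mul_assoc]
      exact mul_le_mul (hC1 v _ _) (abs_dot_le (hdv x hx v) g) (abs_nonneg _) (hC10 v))
    ((integrable_const _).add (integrable_l1.const_mul _))
    (Eventually.of_forall fun g x hx => by
      obtain ⟨hx0, hx1⟩ := hball x hx
      exact hd (fun y => field a b y g) _ x ⟨by linarith, by linarith⟩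
        fun s => hasDerivAt_field a b (by linarith) (by linarith) g s)).2
  refine key.congr_deriv ?_
  have hibp : ∀ v k, ∫ g, g k * H1 v t (field a b t g) ∂gauss (ι ⊕ κ) =
      ∑ u, cvec a b t u k * ∫ g, H2 v u t (field a b t g) ∂gauss (ι ⊕ κ) := by
    intro v k
    have hb2 : Bd (fun z => ∑ u, cvec a b t u k * H2 v u t z) :=
      Bd.sum _ fun u _ => (Bd.const _).mul ((hH2 v u).bd t)
    obtain ⟨hc2, K, hK⟩ := hb2
    rw [gauss_ibp (C := max (C1 v) K) (M := 0) k le_rfl (φ := fun g => H1 v t (field a b t g))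
      (((hH1 v).bd t).1.comp (continuous_field a b t))
      (φ' := fun g => ∑ u, cvec a b t u k * H2 v u t (field a b t g))
      (hc2.comp (continuous_field a b t)) (fun g => by simpa using Or.inl (hC1 v t _))
      (fun g => by simpa using Or.inr (hK _)) ?_,
      integral_finsetSum _ fun u _ => (integrable_Bd a b ((hH2 v u).bd t) t).const_mul _]
    · simp only [integral_const_mul]
    · intro z s
      refine (hd1 t v (fun x => field a b t (Function.update z k x)) (fun u => cvec a b t u k) s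
        fun u => ?_).congr_deriv (Finset.sum_congr rfl fun u _ => mul_comm _ _)
      unfold field dot
      refine (HasDerivAt.fun_sum fun i _ => HasDerivAt.const_mul (cvec a b t u i)
        ((hasDerivAt_pi.1 (hasDerivAt_update z k s)) i)).congr_deriv ?_
      simp [Pi.single_apply]
  have hint : ∀ v k, Integrable (fun g => g k * H1 v t (field a b t g)) (gauss (ι ⊕ κ)) := by
    intro v k
    refine integrable_of_bound (C := C1 v) (M := 1)
      ((continuous_apply k).mul (((hH1 v).bd t).1.comp (continuous_field a b t))) fun g => ?_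
    rw [abs_mul, one_mul, mul_comm (C1 v)]
    exact mul_le_mul ((abs_le_l1 g k).trans (by linarith [Real.add_one_le_exp (l1 g)])) (hC1 v t _)
      (abs_nonneg _) (Real.exp_pos _).le
  have e : ∀ g, F' t g = Ht t (field a b t g) +
      ∑ v, ∑ k, dvec a b t v k * (g k * H1 v t (field a b t g)) := fun g => by
    simp only [hF', dot, Finset.mul_sum]
    exact congrArg _ (Finset.sum_congr rfl fun v _ => Finset.sum_congr rfl fun k _ => by ring)
  have i2 : Integrable (fun g => ∑ v, ∑ k, dvec a b t v k * (g k * H1 v t (field a b t g)))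
      (gauss (ι ⊕ κ)) :=
    integrable_finsetSum _ fun v _ => integrable_finsetSum _ fun k _ => (hint v k).const_mul _
  simp only [e]
  rw [integral_add (integrable_Bd a b (hHt.bd t) t) i2,
    integral_finsetSum _ fun v _ => integrable_finsetSum _ fun k _ => (hint v k).const_mul _,
    Finset.mul_sum]
  congr 1
  refine Finset.sum_congr rfl fun v _ => ?_
  rw [integral_finsetSum _ fun k _ => (hint v k).const_mul _]
  simp only [integral_const_mul, hibp, Finset.mul_sum]
  rw [Finset.sum_comm]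
  refine Finset.sum_congr rfl fun u _ => ?_
  rw [← mul_assoc, one_div_mul_eq_div, ← dot_cvec_dvec a b h0 h1, dot, Finset.sum_mul]
  exact Finset.sum_congr rfl fun k _ => by ring

end Vale.Agent.P157.RS
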