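import Vale.Agent.P157.RS.Family

/-! One pattern seen by the rest of the system: its effect is quadratic in the overlap gap. -/

open MeasureTheory ProbabilityTheory Set Filter
open scoped Topology
open Vale.Agent.P150 (gauss dot)
open Vale.Agent.P157.Lim

namespace Vale.Agent.P157.RS

set_option linter.unusedSectionVars false

variable {S ι : Type} [Fintype S] [Fintype ι] [DecidableEq S] [Nonempty S]
variable {f f1 f2 f3 : ℝ → ℝ} {B D L : ℝ}

/-- scale of the derivative bounds -/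
noncomputable def scaleD (D : ℝ) : ℝ := √(D * D + D)

lemma scaleD_sq (hD : 0 ≤ D) : scaleD D ^ 2 = D * D + D := Real.sq_sqrt (by positivity)

lemma cc_le_scale (hD : 0 ≤ D) {k : ℕ} (hk : k ≤ 2) : cc D L k ≤ scaleD D ^ k := by
  rcases k with _ | _ | _ | k <;> simp only [cc]
  · simp
  · rw [pow_one, scaleD, ← Real.sqrt_mul_self hD]
    exact Real.sqrt_le_sqrt (by rw [Real.sqrt_mul_self hD]; linarith)
  · rw [scaleD_sq hD]
  · omega

/-- overlap gap -/
def ov (P : Par S ι) (u v : S) : ℝ := dot (P.x u) (P.x v) - P.q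

/-- exponential weight of the gap -/
noncomputable def wex (P : Par S ι) (lam : ℝ) (u v : S) : ℝ := Real.exp (lam * ov P u v ^ 2)

/-- the weighted squared gap of two replicas -/
noncomputable def sqGap (P : Par S ι) (lam : ℝ) (σ : Fin 2 → S) : ℝ :=
  ov P (σ 0) (σ 1) ^ 2 * wex P lam (σ 0) (σ 1)

/-- one pattern against an independent standard variable, squared -/
noncomputable def Gam (f f1 f2 f3 : ℝ → ℝ) (q : ℝ) : ℝ :=
  ∫ y, (sm (ee f f1 f2 f3 1) (1 - q) 0 (√q * y) / sm (ee f f1 f2 f3 0) (1 - q) 0 (√q * y)) ^ 2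
    ∂gaussianReal 0 1

lemma Gam_nonneg (q : ℝ) : 0 ≤ Gam f f1 f2 f3 q := integral_nonneg fun _ => sq_nonneg _

lemma abs_ratio_sm (hS : Smooth f f1 f2 f3 B D L) (c s v : ℝ) :
    |sm (ee f f1 f2 f3 1) c s v / sm (ee f f1 f2 f3 0) c s v| ≤ D := by
  rw [abs_div, abs_of_pos (sm_zero_pos hS c s v), div_le_iff₀ (sm_zero_pos hS c s v)]
  exact abs_sm_le hS 1 c s v

lemma Gam_le (hS : Smooth f f1 f2 f3 B D L) (q : ℝ) : Gam f f1 f2 f3 q ≤ D ^ 2 := by
  have hb : ∀ y, (sm (ee f f1 f2 f3 1) (1 - q) 0 (√q * y) / sm (ee f f1 f2 f3 0) (1 - q) 0 (√q * y)) ^ 2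
      ≤ D ^ 2 := fun y => by
    rw [← sq_abs]; exact pow_le_pow_left₀ (abs_nonneg _) (abs_ratio_sm hS _ _ _) 2
  refine (integral_mono_of_nonneg (Eventually.of_forall fun _ => sq_nonneg _) (integrable_const (D ^ 2))
    (Eventually.of_forall hb)).trans (le_of_eq ?_)
  simp

lemma gap_product {lam : ℝ} (hlam : 0 ≤ lam) (x y z : ℝ) :
    |x| * |y| * Real.exp (lam * z ^ 2) ≤
      1 / 2 * (x ^ 2 * Real.exp (lam * x ^ 2) + y ^ 2 * Real.exp (lam * y ^ 2)
        + 2 * (z ^ 2 * Real.exp (lam * z ^ 2))) := by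
  have h : ∀ u : ℝ, u ^ 2 * Real.exp (lam * z ^ 2) ≤
      u ^ 2 * Real.exp (lam * u ^ 2) + z ^ 2 * Real.exp (lam * z ^ 2) := fun u => by
    rcases le_total (z ^ 2) (u ^ 2) with h | h
    · have := mul_le_mul_of_nonneg_left
        (Real.exp_le_exp.2 (mul_le_mul_of_nonneg_left h hlam)) (sq_nonneg u)
      linarith [mul_nonneg (sq_nonneg z) (Real.exp_pos (lam * z ^ 2)).le]
    · have := mul_le_mul_of_nonneg_right h (Real.exp_pos (lam * z ^ 2)).le
      linarith [mul_nonneg (sq_nonneg u) (Real.exp_pos (lam * u ^ 2)).le]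
  have h1 := h x
  have h2 := h y
  have : 2 * (|x| * |y|) ≤ x ^ 2 + y ^ 2 := by nlinarith [sq_nonneg (|x| - |y|), sq_abs x, sq_abs y]
  have := mul_le_mul_of_nonneg_right this (Real.exp_pos (lam * z ^ 2)).le
  linarith

section general

variable {J : Type} [Fintype J] [DecidableEq J]
variable {V : ℕ → ℝ → (S × J → ℝ) → S → ℝ} {inc : J → ℕ → ℕ} {cj : J → ℝ} {C : ℕ → ℝ}
variable (hV : Fam V inc cj C)
include hV

lemma prod_rat_nonneg {n : ℕ} (s : ℝ) (z : S × J → ℝ) (σ : Fin n → S) :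
    0 ≤ ∏ l, rat V 0 s z (σ l) := Finset.prod_nonneg fun _ _ => (rat_zero_pos hV s z _).le

lemma obs_mono {n : ℕ} {Φ Ψ : (Fin n → S) → ℝ} (h : ∀ σ, Φ σ ≤ Ψ σ) (s : ℝ) (z : S × J → ℝ) :
    obs V Φ (fun _ => 0) s z ≤ obs V Ψ (fun _ => 0) s z :=
  Finset.sum_le_sum fun σ _ => mul_le_mul_of_nonneg_right (h σ) (prod_rat_nonneg hV s z σ)

lemma abs_obs_le {E : ℝ} (hC : ∀ k, k ≤ 2 → C k ≤ E ^ k) {n : ℕ} (Φ : (Fin n → S) → ℝ)
    {k : Fin n → ℕ} (hk : ∀ l, k l ≤ 2) (s : ℝ) (z : S × J → ℝ) :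
    |obs V Φ k s z| ≤ E ^ (∑ l, k l) * obs V (fun σ => |Φ σ|) (fun _ => 0) s z := by
  rw [obs, obs, Finset.mul_sum]
  refine (Finset.abs_sum_le_sum_abs _ _).trans (Finset.sum_le_sum fun σ _ => ?_)
  rw [abs_mul, Finset.abs_prod, mul_left_comm, ← Finset.prod_pow_eq_pow_sum, ← Finset.prod_mul_distrib]
  refine mul_le_mul_of_nonneg_left (Finset.prod_le_prod (fun l _ => abs_nonneg _) fun l _ => ?_) (abs_nonneg _)
  exact (abs_rat_le hV _ s z _).trans (mul_le_mul_of_nonneg_right (hC _ (hk l)) (rat_zero_pos hV s z _).le)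

lemma obs_marginal {n : ℕ} {i j : Fin n} (hij : i ≠ j) (G : S → S → ℝ) (s : ℝ) (z : S × J → ℝ) :
    obs V (fun σ => G (σ i) (σ j)) (fun _ => 0) s z =
      ∑ u, ∑ v, rat V 0 s z u * rat V 0 s z v * G u v := by
  classical
  set r := fun u => rat V 0 s z u
  have e : ∀ σ : Fin n → S, G (σ i) (σ j) * ∏ l, r (σ l) =
      ∑ u, ∑ v, G u v * ∏ l, r (σ l) * (if l = i then (if σ l = u then 1 else 0) else 1) *
        (if l = j then (if σ l = v then 1 else 0) else 1) := by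
    intro σ
    simp only [Finset.prod_mul_distrib]
    simp only [Finset.prod_ite_eq', Finset.mem_univ, if_true]
    simp only [mul_ite, mul_one, mul_zero, Finset.sum_ite_eq, Finset.mem_univ, if_true]
  simp only [obs]
  rw [Finset.sum_congr rfl fun σ _ => e σ, Finset.sum_comm]
  refine Finset.sum_congr rfl fun u _ => ?_
  rw [Finset.sum_comm]
  refine Finset.sum_congr rfl fun v _ => ?_
  rw [← Finset.mul_sum, mul_comm _ (G u v)]
  congr 1
  rw [← Fintype.prod_sum (fun (l : Fin n) (w : S) => r w * (if l = i then (if w = u then 1 else 0) else 1) *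
    (if l = j then (if w = v then 1 else 0) else 1))]
  have hone : ∑ w, r w = 1 := sum_rat_zero hV s z
  rw [← Finset.mul_prod_erase _ _ (Finset.mem_univ i),
    ← Finset.mul_prod_erase _ _ (Finset.mem_erase.2 ⟨hij.symm, Finset.mem_univ j⟩)]
  rw [Finset.prod_eq_one fun l hl => ?_]
  · simp [hij, hij.symm, r]
  · simp only [Finset.mem_erase] at hl
    simp [hl.1, hl.2.1, hone]

end general

variable (P : Par S ι) (hS : Smooth f f1 f2 f3 B D L) (hP : P.Ok)
include hS hP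

lemma pair_term {lam : ℝ} (hlam : 0 ≤ lam) {n : ℕ} {p p' a b i j : Fin n} (hp : p ≠ p') (hab : a ≠ b)
    (hij : i ≠ j) {Φ : (Fin n → S) → ℝ}
    (hΦ : ∀ σ, |Φ σ| ≤ |ov P (σ p) (σ p')| * |ov P (σ a) (σ b)| * wex P lam (σ i) (σ j))
    {k : Fin n → ℕ} (hk : ∀ l, k l ≤ 2) (s : ℝ) (z : S × Bool → ℝ) :
    |obs (P.V f f1 f2 f3) Φ k s z| ≤
      scaleD D ^ (∑ l, k l) * (2 * obs (P.V f f1 f2 f3) (sqGap P lam) (fun _ => 0) s z) := by
  have hV := fam_par hS hP
  have hD := D_nonneg hS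
  refine (abs_obs_le hV (E := scaleD D) (fun k hk => cc_le_scale hD hk) Φ hk s z).trans ?_
  refine mul_le_mul_of_nonneg_left ?_ (pow_nonneg (Real.sqrt_nonneg _) _)
  set G := fun u v => ov P u v ^ 2 * wex P lam u v
  refine (obs_mono hV (fun σ => (hΦ σ).trans (gap_product hlam (ov P (σ p) (σ p')) (ov P (σ a) (σ b))
    (ov P (σ i) (σ j)))) s z).trans (le_of_eq ?_)
  have e : (fun σ : Fin n → S => 1 / 2 * (ov P (σ p) (σ p') ^ 2 * Real.exp (lam * ov P (σ p) (σ p') ^ 2)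
      + ov P (σ a) (σ b) ^ 2 * Real.exp (lam * ov P (σ a) (σ b) ^ 2)
      + 2 * (ov P (σ i) (σ j) ^ 2 * Real.exp (lam * ov P (σ i) (σ j) ^ 2)))) =
      fun σ => 1 / 2 * G (σ p) (σ p') + 1 / 2 * G (σ a) (σ b) + 1 * G (σ i) (σ j) := by
    funext σ; simp only [G, wex]; ring
  have hlin : ∀ (c₁ c₂ c₃ : ℝ) (F₁ F₂ F₃ : (Fin n → S) → ℝ),
      obs (P.V f f1 f2 f3) (fun σ => c₁ * F₁ σ + c₂ * F₂ σ + c₃ * F₃ σ) (fun _ => 0) s z =
        c₁ * obs (P.V f f1 f2 f3) F₁ (fun _ => 0) s z + c₂ * obs (P.V f f1 f2 f3) F₂ (fun _ => 0) s z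
          + c₃ * obs (P.V f f1 f2 f3) F₃ (fun _ => 0) s z := by
    intro c₁ c₂ c₃ F₁ F₂ F₃
    simp only [obs, Finset.mul_sum, ← Finset.sum_add_distrib]
    exact Finset.sum_congr rfl fun σ _ => by ring
  rw [e, hlin, obs_marginal hV hp, obs_marginal hV hab, obs_marginal hV hij,
    show sqGap P lam = fun σ : Fin 2 → S => G (σ 0) (σ 1) from rfl,
    obs_marginal hV (show (0 : Fin 2) ≠ 1 by decide)]
  ring

lemma abs_gain_frozen (hfr : P.A = P.Bv) {lam : ℝ} (hlam : 0 ≤ lam) {n : ℕ} {p p' i j : Fin n}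
    (hp : p ≠ p') (hij : i ≠ j) {Φ : (Fin n → S) → ℝ}
    (hΦ : ∀ σ, |Φ σ| ≤ |ov P (σ p) (σ p')| * wex P lam (σ i) (σ j))
    {k : Fin n → ℕ} (hk : ∀ l, k l ≤ 1) (s : ℝ) (z : S × Bool → ℝ) :
    |gain (P.V f f1 f2 f3) Par.inc P.D Φ k s z| ≤
      4 * (n:ℝ) ^ 2 * scaleD D ^ ((∑ l, k l) + 2) *
        obs (P.V f f1 f2 f3) (sqGap P lam) (fun _ => 0) s z := by
  set Y := obs (P.V f f1 f2 f3) (sqGap P lam) (fun _ => 0) s z
  set T := scaleD D ^ ((∑ l, k l) + 2) * (2 * Y) with hT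
  have hf0 : ∀ u v, P.D false u v = 0 := fun u v => by simp [Par.D, hfr]
  have z0 : ∀ {m : ℕ} (F : (Fin m → S) → ℝ) (g : Fin m → ℕ), (∀ σ, F σ = 0) →
      obs (P.V f f1 f2 f3) F g s z = 0 := fun F g hF => by simp [obs, hF]
  have hup : ∀ l, ∀ m, Function.update k l (k l + 1) m ≤ 2 := fun l m => by
    rcases eq_or_ne m l with rfl | h
    · rw [Function.update_self]; linarith [hk m]
    · rw [Function.update_of_ne h]; linarith [hk m]
  have sum_up : ∀ (g : Fin n → ℕ) (l : Fin n), ∑ m, Function.update g l (g l + 1) m = (∑ m, g m) + 1 := by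
    intro g l
    rw [Finset.sum_update_of_mem (Finset.mem_univ l), ← Finset.erase_eq,
      ← Finset.add_sum_erase _ g (Finset.mem_univ l)]
    ring
  have hA : ∀ l l' : Fin n, l' ≠ l →
      |obs (P.V f f1 f2 f3) (fun σ => Φ σ * P.D true (σ l') (σ l))
        (Function.update (Function.update k l (k l + 1)) l' (Function.update k l (k l + 1) l' + 1)) s z| ≤ T := by
    intro l l' hll
    refine (pair_term P hS hP hlam (a := l') (b := l) hp hll hij (fun σ => ?_) (fun m => ?_) s z).trans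
      (le_of_eq ?_)
    · rw [abs_mul, mul_right_comm]
      exact mul_le_mul_of_nonneg_right (hΦ σ) (abs_nonneg _)
    · rcases eq_or_ne m l' with rfl | h
      · rw [Function.update_self, Function.update_of_ne hll]; linarith [hk m]
      · rw [Function.update_of_ne h]; exact hup l m
    · rw [sum_up, sum_up]
  have hB : ∀ l : Fin n,
      |obs (P.V f f1 f2 f3) (fun σ : Fin (n + 1) → S => Φ (Fin.init σ) * P.D true (σ (Fin.last n)) (Fin.init σ l))
        (Fin.snoc (Function.update k l (k l + 1)) 1) s z| ≤ T := by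
    intro l
    refine (pair_term P hS hP hlam (p := p.castSucc) (p' := p'.castSucc) (a := Fin.last n) (b := l.castSucc)
      (i := i.castSucc) (j := j.castSucc) (by simpa using hp) (Fin.castSucc_lt_last l).ne'
      (by simpa using hij) (fun σ => ?_) (fun m => ?_) s z).trans (le_of_eq ?_)
    · rw [abs_mul, mul_right_comm]
      exact mul_le_mul_of_nonneg_right (hΦ (Fin.init σ)) (abs_nonneg _)
    · induction m using Fin.lastCases with
      | last => simp
      | cast m => simpa using hup l m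
    · rw [Fin.sum_univ_castSucc]
      simp only [Fin.snoc_castSucc, Fin.snoc_last, sum_up]
      rfl
  have hC : |obs (P.V f f1 f2 f3) (fun σ : Fin (n + 2) → S => Φ (Fin.init (Fin.init σ)) *
      P.D true (σ (Fin.last (n + 1))) (Fin.init σ (Fin.last n))) (Fin.snoc (Fin.snoc k 1) 1) s z| ≤ T := by
    refine (pair_term P hS hP hlam (p := p.castSucc.castSucc) (p' := p'.castSucc.castSucc)
      (a := Fin.last (n + 1)) (b := (Fin.last n).castSucc)
      (i := i.castSucc.castSucc) (j := j.castSucc.castSucc) (by simpa using hp)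
      (Fin.castSucc_lt_last _).ne' (by simpa using hij) (fun σ => ?_) (fun m => ?_) s z).trans (le_of_eq ?_)
    · rw [abs_mul, mul_right_comm]
      exact mul_le_mul_of_nonneg_right (hΦ (Fin.init (Fin.init σ))) (abs_nonneg _)
    · induction m using Fin.lastCases with
      | last => simp
      | cast m =>
        induction m using Fin.lastCases with
        | last => simp
        | cast m => simp; linarith [hk m]
    · rw [Fin.sum_univ_castSucc]
      simp only [Fin.snoc_castSucc, Fin.snoc_last]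
      rw [Fin.sum_univ_castSucc]
      simp only [Fin.snoc_castSucc, Fin.snoc_last]
      rfl
  have hY : 0 ≤ Y := (abs_nonneg _).trans ((abs_le.2 ⟨?_, le_refl Y⟩) : |Y| ≤ Y)
  swap
  · have : 0 ≤ Y := Finset.sum_nonneg fun σ _ => mul_nonneg
      (mul_nonneg (sq_nonneg _) (Real.exp_pos _).le) (prod_rat_nonneg (fam_par hS hP) s z σ)
    linarith
  have hT0 : 0 ≤ T := mul_nonneg (pow_nonneg (Real.sqrt_nonneg _) _) (by linarith)
  rw [gain, Fintype.sum_bool]
  simp only [Par.inc, hf0, mul_zero, z0 (fun _ => (0:ℝ)) _ (fun _ => rfl), ite_self,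
    Finset.sum_const_zero, sub_zero, add_zero, zero_add]
  have s1 : |∑ l, ∑ l', if l' = l then 0 else obs (P.V f f1 f2 f3) (fun σ => Φ σ * P.D true (σ l') (σ l))
      (Function.update (Function.update k l (k l + 1)) l' (Function.update k l (k l + 1) l' + 1)) s z| ≤
      ((n:ℝ) * n - n) * T := by
    refine (Finset.abs_sum_le_sum_abs _ _).trans ((Finset.sum_le_sum (g := fun _ => ((n:ℝ) - 1) * T)
      fun l _ => ?_).trans (le_of_eq (by simp; ring)))
    rw [← Finset.add_sum_erase _ _ (Finset.mem_univ l), if_pos rfl, zero_add]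
    refine (Finset.abs_sum_le_sum_abs _ _).trans ((Finset.sum_le_sum (g := fun _ => T) fun l' hl' => ?_).trans
      (le_of_eq ?_))
    · rw [if_neg (Finset.ne_of_mem_erase hl')]; exact hA l l' (Finset.ne_of_mem_erase hl')
    · have : 1 ≤ n := l.pos
      simp [Finset.card_erase_of_mem, Nat.cast_sub this]
  have s2 := (Finset.abs_sum_le_sum_abs _ Finset.univ).trans
    (Finset.sum_le_sum (g := fun _ : Fin n => T) fun l _ => hB l)
  simp only [Finset.sum_const, Finset.card_univ, Fintype.card_fin, nsmul_eq_mul] at s2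
  set X1 := ∑ l, ∑ l', if l' = l then 0 else obs (P.V f f1 f2 f3) (fun σ => Φ σ * P.D true (σ l') (σ l))
      (Function.update (Function.update k l (k l + 1)) l' (Function.update k l (k l + 1) l' + 1)) s z
  set X2 := ∑ l, obs (P.V f f1 f2 f3)
      (fun σ : Fin (n + 1) → S => Φ (Fin.init σ) * P.D true (σ (Fin.last n)) (Fin.init σ l))
      (Fin.snoc (Function.update k l (k l + 1)) 1) s z
  set X3 := obs (P.V f f1 f2 f3) (fun σ : Fin (n + 2) → S => Φ (Fin.init (Fin.init σ)) *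
      P.D true (σ (Fin.last (n + 1))) (Fin.init σ (Fin.last n))) (Fin.snoc (Fin.snoc k 1) 1) s z
  have hn : (0:ℝ) ≤ n := Nat.cast_nonneg n
  calc |1 / 2 * (X1 - 2 * (n:ℝ) * X2 + (n:ℝ) * (n + 1) * X3)|
      ≤ 1 / 2 * (|X1| + 2 * n * |X2| + n * (n + 1) * |X3|) := by
        rw [abs_mul, abs_of_pos (show (0:ℝ) < 1/2 by norm_num)]
        refine mul_le_mul_of_nonneg_left ((abs_add_le _ _).trans (add_le_add ((abs_sub _ _).trans
          (add_le_add le_rfl (le_of_eq ?_))) (le_of_eq ?_))) (by norm_num)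
        · rw [abs_mul, abs_of_nonneg (by positivity : 0 ≤ 2 * (n:ℝ))]
        · rw [abs_mul, abs_of_nonneg (by positivity : 0 ≤ (n:ℝ) * (n + 1))]
    _ ≤ 1 / 2 * (((n:ℝ) * n - n) * T + 2 * n * (n * T) + n * (n + 1) * T) := by
        refine mul_le_mul_of_nonneg_left (add_le_add (add_le_add s1 ?_) ?_) (by norm_num)
        · exact mul_le_mul_of_nonneg_left s2 (by positivity)
        · exact mul_le_mul_of_nonneg_left hC (by positivity)
    _ = _ := by rw [hT]; ring

lemma gap_compare (hfr : P.A = P.Bv) (lam : ℝ) {τ s : ℝ} (hτ : τ ∈ Icc (0:ℝ) 1) (hs : s ∈ Icc (0:ℝ) 1) :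
    ∫ g, obs (P.V f f1 f2 f3) (sqGap P lam) (fun _ => 0) τ (field P.a P.b τ g) ∂gauss ((ι ⊕ ι) ⊕ (Unit ⊕ ι)) ≤
      Real.exp (8 * B) *
        ∫ g, obs (P.V f f1 f2 f3) (sqGap P lam) (fun _ => 0) s (field P.a P.b s g) ∂gauss ((ι ⊕ ι) ⊕ (Unit ⊕ ι)) := by
  have h0 : ∀ σ, 0 ≤ sqGap P lam σ := fun σ => mul_nonneg (sq_nonneg _) (Real.exp_pos _).le
  have hb := Bd_base hP.w0 (sqGap P lam)
  have cov : ∀ t ∈ Icc (0:ℝ) 1, ∀ u v, dot (cvec P.a P.b t (u, false)) (cvec P.a P.b t (v, false)) =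
      P.A * dot (P.x u) (P.x v) := by
    intro t ht u v
    simp only [dot, cvec, Par.a, Par.b, Fintype.sum_sum_type, Sum.elim_inl, Sum.elim_inr, mul_zero,
      Finset.sum_const_zero, zero_add, Finset.mul_sum, ← Finset.sum_add_distrib]
    refine Finset.sum_congr rfl fun k _ => ?_
    have a1 := Real.mul_self_sqrt hP.A0
    have a2 := Real.mul_self_sqrt ht.1
    have a3 := Real.mul_self_sqrt (show 0 ≤ 1 - t by linarith [ht.2])
    have hB' := Real.mul_self_sqrt hP.B0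
    rw [← hfr]
    calc _ = √t * √t * (√P.A * √P.A) * (P.x u k * P.x v k)
          + √(1 - t) * √(1 - t) * (√P.A * √P.A) * (P.x u k * P.x v k) := by ring
      _ = _ := by rw [a1, a2, a3]; ring
  have hint : ∀ t, Integrable (fun g => base P.w (sqGap P lam) (fun u => field P.a P.b t g (u, false)))
      (gauss ((ι ⊕ ι) ⊕ (Unit ⊕ ι))) := fun t =>
    integrable_Bd P.a P.b (H := fun z => base P.w (sqGap P lam) (fun u => z (u, false)))
      ⟨hb.1.comp (by fun_prop), hb.2.choose, fun z => hb.2.choose_spec _⟩ t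
  have hlaw : ∫ g, base P.w (sqGap P lam) (fun u => field P.a P.b τ g (u, false)) ∂gauss ((ι ⊕ ι) ⊕ (Unit ⊕ ι)) =
      ∫ g, base P.w (sqGap P lam) (fun u => field P.a P.b s g (u, false)) ∂gauss ((ι ⊕ ι) ⊕ (Unit ⊕ ι)) :=
    law_eq (fun u => cvec P.a P.b τ (u, false)) (fun u => cvec P.a P.b s (u, false))
      (fun u v => by rw [cov τ hτ, cov s hs]) hb.1
  have hi : ∀ t, Integrable (fun g => obs (P.V f f1 f2 f3) (sqGap P lam) (fun _ => 0) t (field P.a P.b t g))
      (gauss ((ι ⊕ ι) ⊕ (Unit ⊕ ι))) := fun t =>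
    integrable_Bd P.a P.b ((BdT_obs (fam_par hS hP) (sqGap P lam) (fun _ => 0)).bd t) t
  calc _ ≤ ∫ g, Real.exp (2 * B) ^ 2 * base P.w (sqGap P lam) (fun u => field P.a P.b τ g (u, false))
        ∂gauss ((ι ⊕ ι) ⊕ (Unit ⊕ ι)) :=
        integral_mono (hi τ) ((hint τ).const_mul _) fun g => (obs_zero_compare hS hP h0 τ _).2
    _ = Real.exp (8 * B) * ∫ g, Real.exp (-(2 * B)) ^ 2 *
        base P.w (sqGap P lam) (fun u => field P.a P.b s g (u, false)) ∂gauss ((ι ⊕ ι) ⊕ (Unit ⊕ ι)) := by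
        rw [integral_const_mul, integral_const_mul, hlaw, ← mul_assoc]
        congr 1
        rw [← Real.exp_nat_mul, ← Real.exp_nat_mul, ← Real.exp_add]
        push_cast; ring_nf
    _ ≤ _ := mul_le_mul_of_nonneg_left
        (integral_mono ((hint s).const_mul _) (hi s) fun g => (obs_zero_compare hS hP h0 s _).1)
        (Real.exp_pos _).le

lemma decouple_zero {n : ℕ} (Φ : (Fin n → S) → ℝ) (k : Fin n → ℕ) :
    ∫ g, obs (P.V f f1 f2 f3) Φ k 0 (field P.a P.b 0 g) ∂gauss ((ι ⊕ ι) ⊕ (Unit ⊕ ι)) =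
      (∫ y, ∏ l, sm (ee f f1 f2 f3 (k l)) (1 - P.q) 0 (√P.q * y) / sm (ee f f1 f2 f3 0) (1 - P.q) 0 (√P.q * y)
        ∂gaussianReal 0 1) *
      ∫ h, base P.w Φ (fun u => √P.Bv * dot (P.x u) h) ∂gauss ι := by
  set φ := fun y => ∏ l, sm (ee f f1 f2 f3 (k l)) (1 - P.q) 0 (√P.q * y) /
    sm (ee f f1 f2 f3 0) (1 - P.q) 0 (√P.q * y) with hφ
  set ψ := fun h : ι → ℝ => base P.w Φ (fun u => √P.Bv * dot (P.x u) h) with hψ
  have pt : ∀ g, obs (P.V f f1 f2 f3) Φ k 0 (field P.a P.b 0 g) =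
      φ (g (.inr (.inl ()))) * ψ (fun i => g (.inr (.inr i))) := by
    intro g
    have ht : ∀ u, field P.a P.b 0 g (u, true) = √P.q * g (.inr (.inl ())) := fun u => by
      simp [field, dot, cvec, Par.b, Fintype.sum_sum_type]
    have hf : ∀ u, field P.a P.b 0 g (u, false) = √P.Bv * dot (P.x u) (fun i => g (.inr (.inr i))) := fun u => by
      simp [field, dot, cvec, Par.b, Fintype.sum_sum_type, Finset.mul_sum, mul_assoc]
    simp only [obs, hψ, base, Finset.mul_sum, rat_factor hS hP, ht, hf]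
    refine Finset.sum_congr rfl fun σ _ => ?_
    rw [hφ, mul_left_comm, ← Finset.prod_mul_distrib]
    refine congrArg _ (Finset.prod_congr rfl fun l _ => ?_)
    set m := sm (ee f f1 f2 f3 0) (1 - P.q) 0 (√P.q * g (Sum.inr (Sum.inl ())))
    have hm : m ≠ 0 := (sm_zero_pos hS _ _ _).ne'
    simp only [gibbs]
    rw [show (∑ u, P.w u * m * Real.exp (√P.Bv * dot (P.x u) fun i => g (Sum.inr (Sum.inr i)))) =
      m * ∑ u, P.w u * Real.exp (√P.Bv * dot (P.x u) fun i => g (Sum.inr (Sum.inr i))) by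
        rw [Finset.mul_sum]; exact Finset.sum_congr rfl fun u _ => by ring]
    have := (gibbs_den_pos hP.w0 (fun u => √P.Bv * dot (P.x u) fun i => g (Sum.inr (Sum.inr i)))).ne'
    field_simp
  have hφc : Continuous φ := continuous_finsetProd _ fun l _ => Continuous.div
    ((continuous_sm hS _ _).comp (by fun_prop : Continuous fun y : ℝ => ((0:ℝ), √P.q * y)))
    ((continuous_sm hS _ _).comp (by fun_prop : Continuous fun y : ℝ => ((0:ℝ), √P.q * y)))
    fun y => (sm_zero_pos hS _ _ _).ne'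
  have hψc : Continuous ψ := (Bd_base hP.w0 Φ).1.comp (by unfold dot; fun_prop)
  simp only [pt]
  have hr : ∀ F : (Unit ⊕ ι → ℝ) → ℝ, Continuous F →
      ∫ g, F (fun k => g (.inr k)) ∂gauss ((ι ⊕ ι) ⊕ (Unit ⊕ ι)) = ∫ w, F w ∂gauss (Unit ⊕ ι) := fun F hF => by
    conv_rhs => rw [← map_right (ι := ι ⊕ ι)]
    rw [integral_map (Measurable.aemeasurable (by fun_prop)) hF.aestronglyMeasurable]
  rw [hr (fun w => φ (w (.inl ())) * ψ (fun i => w (.inr i)))
    ((hφc.comp (continuous_apply _)).mul (hψc.comp (by fun_prop)))]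
  have hsum := measurePreserving_sumPiEquivProdPi (X := fun _ : Unit ⊕ ι => ℝ) fun _ => gaussianReal 0 1
  refine (hsum.integral_comp' (fun p : (Unit → ℝ) × (ι → ℝ) => φ (p.1 ()) * ψ p.2)).trans ?_
  rw [integral_prod_mul (fun u : Unit → ℝ => φ (u ())) ψ]
  congr 1
  exact integral_comp_eval (μ := fun _ : Unit => gaussianReal 0 1) hφc.aestronglyMeasurable

omit hS hP

/-- two replicas carrying a derivative -/
def kpair {n : ℕ} (p p' : Fin n) : Fin n → ℕ := fun l => if l = p ∨ l = p' then 1 else 0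

include hS hP

lemma cavity_bound (hfr : P.A = P.Bv) {lam : ℝ} (hlam : 0 ≤ lam) {n : ℕ} (hn : n ≤ 4) {p p' i j : Fin n}
    (hp : p ≠ p') (hij : i ≠ j) {Φ : (Fin n → S) → ℝ}
    (hΦ : ∀ σ, |Φ σ| ≤ |ov P (σ p) (σ p')| * wex P lam (σ i) (σ j)) {s : ℝ} (hs : s ∈ Icc (0:ℝ) 1) :
    |(∫ g, obs (P.V f f1 f2 f3) Φ (kpair p p') s (field P.a P.b s g) ∂gauss ((ι ⊕ ι) ⊕ (Unit ⊕ ι)))
        - Gam f f1 f2 f3 P.q *
          ∫ g, obs (P.V f f1 f2 f3) Φ (fun _ => 0) s (field P.a P.b s g) ∂gauss ((ι ⊕ ι) ⊕ (Unit ⊕ ι))| ≤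
      128 * (D * D + D) ^ 2 * Real.exp (8 * B) *
        ∫ g, obs (P.V f f1 f2 f3) (sqGap P lam) (fun _ => 0) s (field P.a P.b s g) ∂gauss ((ι ⊕ ι) ⊕ (Unit ⊕ ι)) := by
  have hV := fam_par hS hP
  have hD := D_nonneg hS
  set Kd := D * D + D
  have hKd : 0 ≤ Kd := by positivity
  set Γ := Gam f f1 f2 f3 P.q
  have hΓ0 : 0 ≤ Γ := Gam_nonneg P.q
  have hΓ : Γ ≤ Kd := (Gam_le hS P.q).trans (by simp only [Kd]; nlinarith)
  set G := gauss ((ι ⊕ ι) ⊕ (Unit ⊕ ι))
  set F := fun (k : Fin n → ℕ) (t : ℝ) => ∫ g, obs (P.V f f1 f2 f3) Φ k t (field P.a P.b t g) ∂G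
  set Ys := ∫ g, obs (P.V f f1 f2 f3) (sqGap P lam) (fun _ => 0) s (field P.a P.b s g) ∂G
  set Ym := Real.exp (8 * B) * Ys
  have hk1 : ∀ l, kpair p p' l ≤ 1 := fun l => by simp only [kpair]; split_ifs <;> simp
  have hsum : ∑ l, kpair p p' l = 2 := by
    simp only [kpair]
    rw [← Finset.sum_filter, show (Finset.univ.filter fun l => l = p ∨ l = p') = {p, p'} by ext l; simp,
      Finset.sum_pair hp]
  have hbound : ∀ (k : Fin n → ℕ), (∀ l, k l ≤ 1) → ∀ t ∈ Icc (0:ℝ) 1,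
      |∫ g, gain (P.V f f1 f2 f3) Par.inc P.D Φ k t (field P.a P.b t g) ∂G| ≤
        64 * scaleD D ^ ((∑ l, k l) + 2) * Ym := by
    intro k hk t ht
    have hn4 : (n:ℝ) ^ 2 ≤ 16 := by
      have : (n:ℝ) ≤ 4 := by exact_mod_cast hn
      nlinarith [Nat.cast_nonneg (α := ℝ) n]
    have hY0 : ∀ g, 0 ≤ obs (P.V f f1 f2 f3) (sqGap P lam) (fun _ => 0) t (field P.a P.b t g) := fun g =>
      Finset.sum_nonneg fun σ _ => mul_nonneg (mul_nonneg (sq_nonneg _) (Real.exp_pos _).le)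
        (prod_rat_nonneg hV t _ σ)
    have ig : Integrable (fun g => gain (P.V f f1 f2 f3) Par.inc P.D Φ k t (field P.a P.b t g)) G :=
      integrable_Bd P.a P.b ((BdT_gain hV Φ k).bd t) t
    have iy : Integrable (fun g => obs (P.V f f1 f2 f3) (sqGap P lam) (fun _ => 0) t (field P.a P.b t g)) G :=
      integrable_Bd P.a P.b ((BdT_obs hV _ _).bd t) t
    refine (abs_integral_le_integral_abs).trans ((integral_mono ig.abs
      (iy.const_mul (64 * scaleD D ^ ((∑ l, k l) + 2))) fun g => ?_).trans ?_)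
    · refine (abs_gain_frozen P hS hP hfr hlam hp hij hΦ hk t _).trans ?_
      refine mul_le_mul_of_nonneg_right (mul_le_mul_of_nonneg_right (by linarith) (pow_nonneg
        (Real.sqrt_nonneg _) _)) (hY0 g)
    · rw [integral_const_mul]
      exact mul_le_mul_of_nonneg_left (gap_compare P hS hP hfr lam ht hs)
        (mul_nonneg (by norm_num) (pow_nonneg (Real.sqrt_nonneg _) _))
  set h := fun t => F (kpair p p') t - Γ * F (fun _ => 0) t
  have hcont : ContinuousOn h (Icc 0 1) :=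
    (continuousOn_lin P.a P.b (BdT_obs hV Φ (kpair p p')).lin).sub
      (continuousOn_const.mul (continuousOn_lin P.a P.b (BdT_obs hV Φ (fun _ => 0)).lin))
  have hder : ∀ t ∈ Ioo (0:ℝ) 1, ∃ d, HasDerivAt h d t ∧ |d| ≤ 128 * Kd ^ 2 * Ym := by
    intro t ht
    refine ⟨_, (replica_deriv hV (dcov_par hP) (D_diag hP) D_symm Φ hk1 ht.1 ht.2).sub
      ((replica_deriv hV (dcov_par hP) (D_diag hP) D_symm Φ (fun _ => zero_le_one) ht.1 ht.2).const_mul Γ), ?_⟩
    have b1 := hbound _ hk1 t (Ioo_subset_Icc_self ht)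
    have b0 := hbound (fun _ => 0) (fun _ => zero_le_one) t (Ioo_subset_Icc_self ht)
    rw [hsum, show scaleD D ^ (2 + 2) = (scaleD D ^ 2) ^ 2 by ring, scaleD_sq hD] at b1
    simp only [Finset.sum_const_zero, zero_add, scaleD_sq hD] at b0
    have hYm : 0 ≤ Kd * Ym := by
      have := (abs_nonneg _).trans b0
      linarith
    refine (abs_sub _ _).trans ((add_le_add b1 (show |Γ * _| ≤ 64 * Kd ^ 2 * Ym from ?_)).trans (le_of_eq (by ring)))
    rw [abs_mul, abs_of_nonneg hΓ0]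
    calc Γ * |_| ≤ Kd * (64 * Kd * Ym) := mul_le_mul hΓ b0 (abs_nonneg _) hKd
      _ = _ := by ring
  have h00 : h 0 = 0 := by
    simp only [h, F, G, decouple_zero P hS hP, Γ, Gam]
    have hne : ∀ v, sm (ee f f1 f2 f3 0) (1 - P.q) 0 v ≠ 0 := fun v => (sm_zero_pos hS _ _ _).ne'
    have e : ∀ y, ∏ l, sm (ee f f1 f2 f3 (kpair p p' l)) (1 - P.q) 0 (√P.q * y) /
        sm (ee f f1 f2 f3 0) (1 - P.q) 0 (√P.q * y) =
        (sm (ee f f1 f2 f3 1) (1 - P.q) 0 (√P.q * y) / sm (ee f f1 f2 f3 0) (1 - P.q) 0 (√P.q * y)) ^ 2 := by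
      intro y
      rw [← Finset.mul_prod_erase _ _ (Finset.mem_univ p),
        ← Finset.mul_prod_erase _ _ (Finset.mem_erase.2 ⟨hp.symm, Finset.mem_univ p'⟩),
        Finset.prod_eq_one fun l hl => ?_]
      · simp [kpair, sq]
      · simp only [Finset.mem_erase] at hl
        simp [kpair, hl.1, hl.2.1, hne]
    simp only [e, div_self (hne _), Finset.prod_const_one, integral_const, probReal_univ, one_smul, one_mul]
    ring
  obtain ⟨s0, s1⟩ := hs
  set K := 128 * Kd ^ 2 * Ym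
  have hK : 0 ≤ K := (abs_nonneg _).trans (hder (1 / 2) ⟨by norm_num, by norm_num⟩).choose_spec.2
  have up : MonotoneOn (fun t => K * t - h t) (Icc 0 1) := by
    refine monotoneOn_of_hasDerivWithinAt_nonneg (f' := fun t => K - deriv h t) (convex_Icc 0 1)
      ((continuousOn_const.mul continuousOn_id).sub hcont) (fun t ht => ?_) (fun t ht => ?_) <;>
      rw [interior_Icc] at ht <;> obtain ⟨d, hd, hd'⟩ := hder t ht
    · exact (((hasDerivAt_id' t).const_mul K).sub (hd.deriv ▸ hd)).congr_deriv (by ring) |>.hasDerivWithinAt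
    · rw [hd.deriv]; linarith [(abs_le.1 hd').2]
  have dn : MonotoneOn (fun t => K * t + h t) (Icc 0 1) := by
    refine monotoneOn_of_hasDerivWithinAt_nonneg (f' := fun t => K + deriv h t) (convex_Icc 0 1)
      ((continuousOn_const.mul continuousOn_id).add hcont) (fun t ht => ?_) (fun t ht => ?_) <;>
      rw [interior_Icc] at ht <;> obtain ⟨d, hd, hd'⟩ := hder t ht
    · exact (((hasDerivAt_id' t).const_mul K).add (hd.deriv ▸ hd)).congr_deriv (by ring) |>.hasDerivWithinAt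
    · rw [hd.deriv]; linarith [(abs_le.1 hd').1]
  have u1 := up (left_mem_Icc.2 zero_le_one) ⟨s0, s1⟩ s0
  have u2 := dn (left_mem_Icc.2 zero_le_one) ⟨s0, s1⟩ s0
  simp only [h00] at u1 u2
  have hKs : K * s ≤ K := mul_le_of_le_one_right hK s1
  have e : K = 128 * Kd ^ 2 * Real.exp (8 * B) * Ys := by simp only [K, Ym]; ring
  rw [← e]
  exact abs_le.2 ⟨by simp only [h, F] at u2; linarith, by simp only [h, F] at u1; linarith⟩

end Vale.Agent.P157.RS
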