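import Vale.Agent.P157.RS.Induct

/-! The pure cavity system factorises over sites. -/

open MeasureTheory ProbabilityTheory Set Filter
open scoped Topology
open Vale.Agent.P150 (gauss dot integral_exp_mul_sq)
open Vale.Agent.P157.Lim

namespace Vale.Agent.P157.RS

set_option linter.unusedSectionVars false

/-- one-site Gibbs weight -/
noncomputable def site (u : ℝ) (b : Bool) : ℝ := Real.exp (sgn b * u) / (2 * Real.cosh u)

/-- second moment of the magnetisation -/
noncomputable def qfun (r : ℝ) : ℝ := ∫ z, Real.tanh (√r * z) ^ 2 ∂gaussianReal 0 1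

/-- free energy of one site -/
noncomputable def siteFree (r : ℝ) : ℝ := ∫ z, Real.log (Real.cosh (√r * z)) ∂gaussianReal 0 1

lemma continuous_tanh' : Continuous Real.tanh := by
  have : Real.tanh = fun u => Real.sinh u / Real.cosh u := funext Real.tanh_eq_sinh_div_cosh
  rw [this]
  exact Real.continuous_sinh.div Real.continuous_cosh fun u => (Real.cosh_pos u).ne'

lemma hasDerivAt_tanh' (u : ℝ) : HasDerivAt Real.tanh (1 - Real.tanh u ^ 2) u := by
  have h := (Real.hasDerivAt_sinh u).div (Real.hasDerivAt_cosh u) (Real.cosh_pos u).ne'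
  have e : Real.tanh = Real.sinh / Real.cosh := funext fun v => by simp [Real.tanh_eq_sinh_div_cosh]
  rw [e]
  refine h.congr_deriv ?_
  have := (Real.cosh_pos u).ne'
  rw [Pi.div_apply]
  field_simp

lemma abs_tanh_sub (a b : ℝ) : |Real.tanh a - Real.tanh b| ≤ |a - b| := by
  have := convex_univ.norm_image_sub_le_of_norm_hasDerivWithin_le (f := Real.tanh)
    (f' := fun u => 1 - Real.tanh u ^ 2) (C := 1) (fun u _ => (hasDerivAt_tanh' u).hasDerivWithinAt)
    (fun u _ => by
      rw [Real.norm_eq_abs, abs_le]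
      constructor <;> nlinarith [Real.tanh_sq_lt_one u]) (mem_univ b) (mem_univ a)
  simpa using this

lemma abs_tanh_sq_sub (a b : ℝ) : |Real.tanh a ^ 2 - Real.tanh b ^ 2| ≤ 2 * |a - b| := by
  rw [sq_sub_sq, abs_mul]
  refine mul_le_mul ((abs_add_le _ _).trans ?_) (abs_tanh_sub a b) (abs_nonneg _) zero_le_two
  linarith [Real.abs_tanh_lt_one a, Real.abs_tanh_lt_one b]

lemma abs_logcosh_sub (a b : ℝ) : |Real.log (Real.cosh a) - Real.log (Real.cosh b)| ≤ |a - b| := by
  have := convex_univ.norm_image_sub_le_of_norm_hasDerivWithin_le (f := fun u => Real.log (Real.cosh u))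
    (f' := fun u => Real.tanh u) (C := 1)
    (fun u _ => (((Real.hasDerivAt_cosh u).log (Real.cosh_pos u).ne').congr_deriv
      (Real.tanh_eq_sinh_div_cosh u).symm).hasDerivWithinAt)
    (fun u _ => (Real.abs_tanh_lt_one u).le) (mem_univ b) (mem_univ a)
  simpa using this

lemma integrable_logcosh (c : ℝ) : Integrable (fun z => Real.log (Real.cosh (c * z))) (gaussianReal 0 1) := by
  refine (((memLp_id_gaussianReal 1).integrable le_rfl).abs.const_mul |c|).mono'
    ((Real.continuous_cosh.comp (by fun_prop)).log fun z => (Real.cosh_pos _).ne').aestronglyMeasurable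
    (Eventually.of_forall fun z => ?_)
  rw [Real.norm_eq_abs, id, ← abs_mul]
  simpa using abs_logcosh_sub (c * z) 0

lemma integrable_tanh_sq (c : ℝ) : Integrable (fun z => Real.tanh (c * z) ^ 2) (gaussianReal 0 1) :=
  Integrable.of_bound ((continuous_tanh'.comp (by fun_prop)).pow 2).aestronglyMeasurable 1
    (Eventually.of_forall fun z => by
      rw [Real.norm_eq_abs, abs_of_nonneg (sq_nonneg _)]
      exact (Real.tanh_sq_lt_one _).le)

lemma qfun_mem (r : ℝ) : qfun r ∈ Icc (0:ℝ) 1 :=
  ⟨integral_nonneg fun _ => sq_nonneg _,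
    (integral_mono (integrable_tanh_sq _) (integrable_const (1:ℝ)) fun _ => (Real.tanh_sq_lt_one _).le).trans
      (by simp)⟩

lemma site_nonneg (u : ℝ) (b : Bool) : 0 ≤ site u b :=
  div_nonneg (Real.exp_pos _).le (by linarith [Real.cosh_pos u])

lemma site_eq (u : ℝ) (b : Bool) : site u b = (1 + sgn b * Real.tanh u) / 2 := by
  have h := Real.cosh_pos u
  rw [site, Real.tanh_eq_sinh_div_cosh]
  cases b <;> simp only [sgn, Bool.false_eq_true, if_false, if_true, neg_mul, one_mul]
  · rw [← Real.cosh_sub_sinh]; field_simp; ring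
  · rw [← Real.cosh_add_sinh]; field_simp

lemma site_le_one (u : ℝ) (b : Bool) : site u b ≤ 1 := by
  have := abs_lt.1 (Real.abs_tanh_lt_one u)
  rw [site_eq]
  cases b <;> simp [sgn] <;> linarith

lemma continuous_site (b : Bool) : Continuous fun u => site u b :=
  Continuous.div (by fun_prop) (by fun_prop) fun u => by linarith [Real.cosh_pos u]

variable {N : ℕ}

lemma energy_eq (hN : 0 < N) {r : ℝ} (h : Fin N → ℝ) (σ : Fin N → Bool) :
    √((N:ℝ) * r) * dot (xv N σ) h = ∑ i, sgn (σ i) * (√r * h i) := by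
  have : √(N:ℝ) ≠ 0 := (Real.sqrt_pos.2 (by exact_mod_cast hN)).ne'
  rw [Real.sqrt_mul (Nat.cast_nonneg N), dot, Finset.mul_sum]
  refine Finset.sum_congr rfl fun i _ => ?_
  simp only [xv]
  field_simp

lemma part_eq (a : Fin N → ℝ) :
    ∑ σ, wt N σ * Real.exp (∑ i, sgn (σ i) * a i) = ∏ i, Real.cosh (a i) := by
  have e : ∀ i, Real.cosh (a i) = ∑ b, 1 / 2 * Real.exp (sgn b * a i) := fun i => by
    rw [Fintype.sum_bool, Real.cosh_eq]; simp [sgn]; ring
  simp only [e]
  rw [Fintype.prod_sum]
  refine Finset.sum_congr rfl fun σ _ => ?_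
  rw [Finset.prod_mul_distrib, Real.exp_sum]
  simp [wt]

lemma gibbs_eq (a : Fin N → ℝ) (σ : Fin N → Bool) :
    gibbs (wt N) (fun u => ∑ i, sgn (u i) * a i) σ = ∏ i, site (a i) (σ i) := by
  rw [gibbs, part_eq]
  simp only [site, Finset.prod_div_distrib, Finset.prod_mul_distrib, Real.exp_sum, wt, Finset.prod_const,
    Finset.card_univ, Fintype.card_fin]
  rw [one_div, inv_pow]
  field_simp

lemma lse_end (hN : 0 < N) (r : ℝ) :
    ffield (xv N) ((N:ℝ) * r) (lse (wt N)) 0 = N * siteFree r := by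
  have e : ∀ h, lse (wt N) (0 + fun u => √((N:ℝ) * r) * dot (xv N u) h) =
      ∑ i, Real.log (Real.cosh (√r * h i)) := fun h => by
    simp only [lse, Pi.add_apply, Pi.zero_apply, zero_add, energy_eq hN, part_eq]
    exact Real.log_prod fun i _ => (Real.cosh_pos _).ne'
  have hc : Continuous fun z => Real.log (Real.cosh (√r * z)) :=
    (Real.continuous_cosh.comp (by fun_prop)).log fun z => (Real.cosh_pos _).ne'
  simp only [ffield, e]
  have hint : ∀ i : Fin N, Integrable (fun h : Fin N → ℝ => Real.log (Real.cosh (√r * h i))) (gauss (Fin N)) :=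
    fun i => integrable_comp_eval (μ := fun _ : Fin N => gaussianReal 0 1) (i := i) (integrable_logcosh √r)
  rw [integral_finsetSum _ fun i _ => hint i]
  have : ∀ i : Fin N, ∫ h, Real.log (Real.cosh (√r * h i)) ∂gauss (Fin N) = siteFree r := fun i =>
    integral_comp_eval (μ := fun _ : Fin N => gaussianReal 0 1) hc.aestronglyMeasurable
  simp [this]

lemma mean_exp_le {q : ℝ} (hq : |q| ≤ 1) (t : ℝ) :
    Real.exp (-(t * q)) * (Real.cosh t + q * Real.sinh t) ≤ Real.exp (2 * t ^ 2) := by
  obtain ⟨q0, q1⟩ := abs_le.1 hq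
  have a := Real.exp_mul_le_cosh_add_mul_sinh (t := (1 - q) / 2) (abs_le.2 ⟨by linarith, by linarith⟩) (2 * t)
  have b := Real.exp_mul_le_cosh_add_mul_sinh (t := -((1 + q) / 2)) (abs_le.2 ⟨by linarith, by linarith⟩) (2 * t)
  have a' := mul_le_mul_of_nonneg_left a (show 0 ≤ (1 + q) / 2 by linarith)
  have b' := mul_le_mul_of_nonneg_left b (show 0 ≤ (1 - q) / 2 by linarith)
  have c := Real.cosh_le_exp_half_sq (2 * t)
  have e1 : Real.exp ((1 - q) / 2 * (2 * t)) = Real.exp (-(t * q)) * Real.exp t := by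
    rw [← Real.exp_add]; ring_nf
  have e2 : Real.exp (-((1 + q) / 2) * (2 * t)) = Real.exp (-(t * q)) * Real.exp (-t) := by
    rw [← Real.exp_add]; ring_nf
  rw [e1] at a'; rw [e2] at b'
  rw [show (2 * t) ^ 2 / 2 = 2 * t ^ 2 by ring] at c
  rw [Real.cosh_eq, Real.sinh_eq]
  linarith

lemma tilt_le (q t : ℝ) (hq : |q| ≤ 1) : |Real.exp (-(t * q)) * Real.sinh t| ≤ 2 * Real.exp (2 * t ^ 2) := by
  have h1 : |Real.sinh t| ≤ Real.exp |t| := by
    rw [Real.sinh_eq, abs_le]
    have p := Real.exp_le_exp.2 (le_abs_self t)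
    have m := Real.exp_le_exp.2 (neg_le_abs t)
    constructor <;> linarith [Real.exp_pos t, Real.exp_pos (-t)]
  have h2 : Real.exp (-(t * q)) ≤ Real.exp |t| := Real.exp_le_exp.2 ((neg_le_abs _).trans (by
    rw [abs_mul]; exact mul_le_of_le_one_right (abs_nonneg t) hq))
  rw [abs_mul, abs_of_pos (Real.exp_pos _)]
  refine (mul_le_mul h2 h1 (abs_nonneg _) (Real.exp_pos _).le).trans ?_
  rw [← Real.exp_add]
  have h3 : |t| + |t| ≤ 2 * t ^ 2 + 1 / 2 := by nlinarith [sq_nonneg (2 * |t| - 1), sq_abs t]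
  refine (Real.exp_le_exp.2 h3).trans ?_
  rw [Real.exp_add, mul_comm]
  refine mul_le_mul_of_nonneg_right ?_ (Real.exp_pos _).le
  have := Real.add_one_le_exp (-(1 / 2) : ℝ)
  rw [Real.exp_neg] at this
  have h4 := Real.exp_pos (1 / 2 : ℝ)
  have h5 : (Real.exp (1 / 2 : ℝ))⁻¹ * Real.exp (1 / 2) = 1 := inv_mul_cancel₀ h4.ne'
  nlinarith [mul_le_mul_of_nonneg_right this h4.le]

lemma site_moment (r q t : ℝ) :
    ∑ a, ∑ b, (∫ z, site (√r * z) a * site (√r * z) b ∂gaussianReal 0 1) * Real.exp (t * (sgn a * sgn b - q)) =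
      Real.exp (-(t * q)) * (Real.cosh t + qfun r * Real.sinh t) := by
  have hi : ∀ a b, Integrable (fun z => site (√r * z) a * site (√r * z) b) (gaussianReal 0 1) := fun a b =>
    Integrable.of_bound (((continuous_site a).comp (by fun_prop)).mul
      ((continuous_site b).comp (by fun_prop))).aestronglyMeasurable 1 (Eventually.of_forall fun z => by
      rw [Real.norm_eq_abs, abs_of_nonneg (mul_nonneg (site_nonneg _ _) (site_nonneg _ _))]
      exact mul_le_one₀ (site_le_one _ _) (site_nonneg _ _) (site_le_one _ _))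
  have e : ∀ z, ∑ a, ∑ b, site (√r * z) a * site (√r * z) b * Real.exp (t * (sgn a * sgn b - q)) =
      Real.exp (-(t * q)) * Real.cosh t + Real.exp (-(t * q)) * Real.sinh t * Real.tanh (√r * z) ^ 2 := fun z => by
    have p : Real.exp (t * (1 - q)) = Real.exp (-(t * q)) * Real.exp t := by rw [← Real.exp_add]; ring_nf
    have m : Real.exp (t * (-1 - q)) = Real.exp (-(t * q)) * Real.exp (-t) := by rw [← Real.exp_add]; ring_nf
    simp only [site_eq, Fintype.sum_bool, sgn, if_true, if_false, Bool.false_eq_true]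
    norm_num [p, m, Real.cosh_eq, Real.sinh_eq]
    ring
  simp only [← integral_mul_const]
  rw [← Finset.sum_congr rfl fun a _ => integral_finsetSum _ fun b _ => (hi a b).mul_const _,
    ← integral_finsetSum _ fun a _ => integrable_finsetSum _ fun b _ => (hi a b).mul_const _]
  simp only [e]
  rw [integral_add (integrable_const _) ((integrable_tanh_sq _).const_mul _), integral_const, probReal_univ,
    one_smul]
  simp only [qfun, integral_const_mul]
  ring

lemma psi_end (hN : 0 < N) {q : ℝ} (hq : |q| ≤ 1) (r : ℝ) :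
    ffield (xv N) ((N:ℝ) * r) (psi (xv N) q (wt N) ((N:ℝ) / 16)) 0 ≤
      2 * Real.exp (2 * N * |qfun r - q|) := by
  set μ := qfun r - q
  set j := fun a b => ∫ z, site (√r * z) a * site (√r * z) b ∂gaussianReal 0 1 with hj
  have hN0 : (0:ℝ) < N := by exact_mod_cast hN
  set l := (N:ℝ) / 16 with hl
  set G := fun σ : Fin 2 → Fin N → Bool => Real.exp (l * (dot (xv N (σ 0)) (xv N (σ 1)) - q) ^ 2) with hG
  -- average over the cavity field
  have e1 : ffield (xv N) ((N:ℝ) * r) (psi (xv N) q (wt N) l) 0 = ∑ σ, G σ * ∏ i, j (σ 0 i) (σ 1 i) := by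
    have e : ∀ h, psi (xv N) q (wt N) l (0 + fun u => √((N:ℝ) * r) * dot (xv N u) h) =
        ∑ σ, G σ * ∏ i, (site (√r * h i) (σ 0 i) * site (√r * h i) (σ 1 i)) := fun h => by
      simp only [psi, base, zero_add, Fin.prod_univ_two, energy_eq hN, gibbs_eq, G, Finset.prod_mul_distrib]
    simp only [ffield, e]
    have hi : ∀ σ : Fin 2 → Fin N → Bool, Integrable (fun h : Fin N → ℝ =>
        ∏ i, (site (√r * h i) (σ 0 i) * site (√r * h i) (σ 1 i))) (gauss (Fin N)) := fun σ =>
      Integrable.of_bound (continuous_finsetProd _ fun i _ => ((continuous_site _).comp (by fun_prop)).mul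
        ((continuous_site _).comp (by fun_prop))).aestronglyMeasurable 1 (Eventually.of_forall fun h => by
        rw [Real.norm_eq_abs, abs_of_nonneg (Finset.prod_nonneg fun i _ =>
          mul_nonneg (site_nonneg _ _) (site_nonneg _ _))]
        exact Finset.prod_le_one (fun i _ => mul_nonneg (site_nonneg _ _) (site_nonneg _ _)) fun i _ =>
          mul_le_one₀ (site_le_one _ _) (site_nonneg _ _) (site_le_one _ _))
    rw [integral_finsetSum _ fun σ _ => (hi σ).const_mul _]
    refine Finset.sum_congr rfl fun σ _ => ?_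
    rw [integral_const_mul]
    exact congrArg _ (integral_fintype_prod_eq_prod
      (fun i (z : ℝ) => site (√r * z) (σ 0 i) * site (√r * z) (σ 1 i)))
  set t := fun y : ℝ => √(2 * l) * y / N with ht
  set M := fun y => Real.exp (-(t y * q)) * (Real.cosh (t y) + qfun r * Real.sinh (t y))
  -- linearise the square
  have iG : ∀ σ : Fin 2 → Fin N → Bool, Integrable
      (fun y => Real.exp (√(2 * l) * (dot (xv N (σ 0)) (xv N (σ 1)) - q) * y)) (gaussianReal 0 1) :=
    fun σ => integrable_exp_mul_gaussianReal _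
  have eG : ∀ σ, G σ = ∫ y, Real.exp (√(2 * l) * (dot (xv N (σ 0)) (xv N (σ 1)) - q) * y) ∂gaussianReal 0 1 := by
    intro σ
    have := congrFun (mgf_id_gaussianReal (μ := 0) (v := 1)) (√(2 * l) * (dot (xv N (σ 0)) (xv N (σ 1)) - q))
    simp only [mgf, id, NNReal.coe_one, zero_mul, zero_add, one_mul] at this
    rw [this, hG, mul_pow, Real.sq_sqrt (by positivity)]
    ring_nf
  have e2 : ∑ σ, G σ * ∏ i, j (σ 0 i) (σ 1 i) = ∫ y, M y ^ N ∂gaussianReal 0 1 := by
    simp only [eG, ← integral_mul_const]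
    rw [← integral_finsetSum _ fun σ _ => (iG σ).mul_const _]
    refine integral_congr_ae (Eventually.of_forall fun y => ?_)
    dsimp only
    have hM : ∀ _i : Fin N, M y = ∑ a, ∑ b, j a b * Real.exp (t y * (sgn a * sgn b - q)) := fun _ =>
      (site_moment r q (t y)).symm
    rw [← Fin.prod_const N (M y), Finset.prod_congr rfl fun i _ => hM i, Fintype.prod_sum,
      ← (finTwoArrowEquiv (Fin N → Bool)).symm.sum_comp, Fintype.sum_prod_type]
    refine Finset.sum_congr rfl fun u _ => ?_
    rw [Fintype.prod_sum]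
    refine Finset.sum_congr rfl fun v _ => ?_
    rw [Finset.prod_mul_distrib, ← Real.exp_sum, mul_comm]
    congr 2
    show √(2 * l) * (dot (xv N (![u, v] 0)) (xv N (![u, v] 1)) - q) * y = _
    simp only [Matrix.cons_val_zero, Matrix.cons_val_one, Matrix.cons_val_fin_one]
    have hd : dot (xv N u) (xv N v) - q = (∑ i, (sgn (u i) * sgn (v i) - q)) / N := by
      simp only [dot, xv, div_mul_div_comm, Real.mul_self_sqrt hN0.le, ← Finset.sum_div, Finset.sum_sub_distrib,
        Finset.sum_const, Finset.card_univ, Fintype.card_fin, nsmul_eq_mul]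
      field_simp
    rw [hd, ← Finset.mul_sum, ht]
    ring
  have hbound : ∀ y, M y ^ N ≤ Real.exp (2 * N * |μ|) * Real.exp (1 / 4 * y ^ 2) := by
    intro y
    have h1 : M y ≤ Real.exp (2 * t y ^ 2) * Real.exp (2 * |μ|) := by
      have a := mean_exp_le hq (t y)
      have b := (le_abs_self _).trans ((abs_mul _ _).trans_le
        (mul_le_mul_of_nonneg_left (tilt_le q (t y) hq) (abs_nonneg μ)))
      have c := mul_le_mul_of_nonneg_left (Real.add_one_le_exp (2 * |μ|)) (Real.exp_pos (2 * t y ^ 2)).le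
      simp only [M, μ] at *
      linarith
    have h0 : 0 ≤ M y := by
      refine mul_nonneg (Real.exp_pos _).le ?_
      have h := qfun_mem r
      rw [Real.cosh_eq, Real.sinh_eq]
      nlinarith [Real.exp_pos (t y), Real.exp_pos (-t y), h.1, h.2]
    refine (pow_le_pow_left₀ h0 h1 N).trans (le_of_eq ?_)
    rw [mul_pow, ← Real.exp_nat_mul, ← Real.exp_nat_mul, mul_comm]
    congr 1
    · ring_nf
    · simp only [ht, div_pow, mul_pow]
      rw [Real.sq_sqrt (by positivity), hl]
      congr 1
      field_simp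
      ring
  obtain ⟨hi4, he4⟩ := integral_exp_mul_sq (s := 1 / 4) (by norm_num)
  rw [e1, e2]
  refine (integral_mono_of_nonneg (Eventually.of_forall fun y => ?_) (hi4.const_mul _)
    (Eventually.of_forall hbound)).trans ?_
  · refine pow_nonneg (mul_nonneg (Real.exp_pos _).le ?_) N
    have h := qfun_mem r
    rw [Real.cosh_eq, Real.sinh_eq]
    nlinarith [Real.exp_pos (t y), Real.exp_pos (-t y), h.1, h.2]
  rw [integral_const_mul, he4, mul_comm]
  refine mul_le_mul_of_nonneg_right ?_ (Real.exp_pos _).le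
  rw [inv_le_comm₀ (Real.sqrt_pos.2 (by norm_num)) two_pos]
  exact Real.le_sqrt_of_sq_le (by norm_num)

end Vale.Agent.P157.RS
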