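import Vale.Agent.P157.RS.Step

/-! The log partition sum and the exponential gap moment along the exchange of one pattern. -/

open MeasureTheory ProbabilityTheory Set Filter
open scoped Topology
open Vale.Agent.P150 (gauss dot l1)
open Vale.Agent.P157.Lim

namespace Vale.Agent.P157.RS

set_option linter.unusedSectionVars false

variable {S ι : Type} [Fintype S] [Fintype ι] [DecidableEq S] [Nonempty S]
variable {f f1 f2 f3 : ℝ → ℝ} {B D L : ℝ}

/-- replicas as pairs -/
lemma obs_two {J : Type} (V : ℕ → ℝ → (S × J → ℝ) → S → ℝ) (Φ : (Fin 2 → S) → ℝ) (k : Fin 2 → ℕ)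
    (s : ℝ) (z : S × J → ℝ) :
    obs V Φ k s z = ∑ u, ∑ v, Φ ![u, v] * (rat V (k 0) s z u * rat V (k 1) s z v) := by
  rw [obs, ← (finTwoArrowEquiv S).symm.sum_comp, Fintype.sum_prod_type]
  exact Finset.sum_congr rfl fun u _ => Finset.sum_congr rfl fun v _ => by simp [Fin.prod_univ_two]

lemma obs_expand {J : Type} (V : ℕ → ℝ → (S × J → ℝ) → S → ℝ) {n : ℕ} (Φ : (Fin n → S) → ℝ)
    (k : Fin n → ℕ) (s : ℝ) (z : S × J → ℝ) :
    obs V Φ k s z = ∑ τ, Φ τ * obs V (fun σ => if σ = τ then 1 else 0) k s z := by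
  simp [obs, ite_mul]

/-- the normalised log weight, without its drift -/
noncomputable def lsum (P : Par S ι) (f f1 f2 f3 : ℝ → ℝ) (s : ℝ) (z : S × Bool → ℝ) : ℝ :=
  Real.log (∑ u, P.w u * sm (ee f f1 f2 f3 0) (1 - P.q) s (z (u, true)) * Real.exp (z (u, false)))

/-- the exchange family -/
noncomputable def stepPar (f f1 f2 f3 : ℝ → ℝ) (x : S → ι → ℝ) (q : ℝ) (W : S → ℝ) (m : ℕ) (E : S → ℝ) :
    Par S ι where
  x := x
  q := q
  A := m * Gam f f1 f2 f3 q
  Bv := (m + 1) * Gam f f1 f2 f3 q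
  w σ := W σ * Real.exp (E σ)

variable (P : Par S ι) (hS : Smooth f f1 f2 f3 B D L) (hP : P.Ok)

omit [DecidableEq S] in
include hS hP in
lemma lsum_arg_pos (s : ℝ) (z : S × Bool → ℝ) :
    0 < ∑ u, P.w u * sm (ee f f1 f2 f3 0) (1 - P.q) s (z (u, true)) * Real.exp (z (u, false)) :=
  Finset.sum_pos (fun u _ => mul_pos (mul_pos (hP.w0 u) (sm_zero_pos hS _ _ _)) (Real.exp_pos _))
    Finset.univ_nonempty

include hS hP

lemma Lin_lsum : Lin (lsum P f f1 f2 f3) := by
  refine ⟨(continuous_finsetSum _ fun u _ => (continuous_const.mul ((continuous_sm hS 0 (1 - P.q)).comp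
    (by fun_prop : Continuous fun p : ℝ × (S × Bool → ℝ) => (p.1, p.2 (u, true))))).mul (by fun_prop)).log
    fun p => (lsum_arg_pos P hS hP p.1 p.2).ne', max 1 (|Real.log (∑ u, P.w u)| + B), fun s z => ?_⟩
  have hw : 0 < ∑ u, P.w u := Finset.sum_pos (fun u _ => hP.w0 u) Finset.univ_nonempty
  set T := ∑ v, |z v|
  have hT : 0 ≤ T := Finset.sum_nonneg fun _ _ => abs_nonneg _
  have hu : ∀ u, |z (u, false)| ≤ T := fun u =>
    Finset.single_le_sum (f := fun v => |z v|) (fun _ _ => abs_nonneg _) (Finset.mem_univ (u, false))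
  have hup : ∑ u, P.w u * sm (ee f f1 f2 f3 0) (1 - P.q) s (z (u, true)) * Real.exp (z (u, false)) ≤
      (∑ u, P.w u) * Real.exp (B + T) := by
    rw [Finset.sum_mul]
    refine Finset.sum_le_sum fun u _ => ?_
    rw [mul_assoc, Real.exp_add]
    exact mul_le_mul_of_nonneg_left (mul_le_mul (sm_zero_bounds hS _ _ _).2
      (Real.exp_le_exp.2 (abs_le.1 (hu u)).2) (Real.exp_pos _).le (Real.exp_pos _).le) (hP.w0 u).le
  have hlo : (∑ u, P.w u) * Real.exp (-(B + T)) ≤
      ∑ u, P.w u * sm (ee f f1 f2 f3 0) (1 - P.q) s (z (u, true)) * Real.exp (z (u, false)) := by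
    rw [Finset.sum_mul]
    refine Finset.sum_le_sum fun u _ => ?_
    rw [mul_assoc, neg_add, Real.exp_add]
    exact mul_le_mul_of_nonneg_left (mul_le_mul (sm_zero_bounds hS _ _ _).1
      (Real.exp_le_exp.2 (abs_le.1 (hu u)).1) (Real.exp_pos _).le (sm_zero_pos hS _ _ _).le) (hP.w0 u).le
  have a := Real.log_le_log (lsum_arg_pos P hS hP s z) hup
  have b := Real.log_le_log (mul_pos hw (Real.exp_pos _)) hlo
  rw [Real.log_mul hw.ne' (Real.exp_pos _).ne', Real.log_exp] at a b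
  have h1 : T ≤ max 1 (|Real.log (∑ u, P.w u)| + B) * T := le_mul_of_one_le_left hT (le_max_left _ _)
  have h2 := le_max_right (1:ℝ) (|Real.log (∑ u, P.w u)| + B)
  rw [lsum, mul_add, mul_one, abs_le]
  constructor <;> linarith [le_abs_self (Real.log (∑ u, P.w u)), neg_abs_le (Real.log (∑ u, P.w u))]

lemma lsum_eq (s : ℝ) (z : S × Bool → ℝ) :
    lsum P f f1 f2 f3 s z = Real.log (tsum0 (P.V f f1 f2 f3) s z) + (P.A - P.Bv) * s / 2 := by
  have h := lsum_arg_pos P hS hP s z
  simp only [lsum, tsum0, Par.V, Real.exp_sub, ← mul_div_assoc, ← Finset.sum_div]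
  rw [Real.log_div h.ne' (Real.exp_pos _).ne', Real.log_exp]
  ring

lemma DerT_lsum :
    DerT (lsum P f f1 f2 f3)
      (fun s z => timeDen (P.V f f1 f2 f3) Par.inc P.cj s z + (P.A - P.Bv) / 2)
      (fun v s z => rat (P.V f f1 f2 f3) (Par.inc v.2 0) s z v.1) := by
  intro c c' τ hτ hc
  have hV := fam_par hS hP
  set d := tsum0 (P.V f f1 f2 f3) τ (c τ) with hd
  have h0 : d ≠ 0 := (tsum0_pos hV τ (c τ)).ne'
  have hden : HasDerivAt (fun x => tsum0 (P.V f f1 f2 f3) x (c x))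
      ((∑ u, -(1 / 2) * ∑ j, P.cj j * P.V f f1 f2 f3 (Par.inc j (Par.inc j 0)) τ (c τ) u) +
        ∑ v : S × Bool, P.V f f1 f2 f3 (Par.inc v.2 0) τ (c τ) v.1 * c' v) τ := by
    refine (HasDerivAt.fun_sum (u := Finset.univ) fun u _ =>
      hV.dt 0 zero_le_one u c c' τ hτ hc).congr_deriv ?_
    rw [Finset.sum_add_distrib]
    congr 1
    rw [Finset.sum_comm]
    exact Finset.sum_congr rfl fun v _ => by simp
  have h1 := (hden.log h0).add (((hasDerivAt_id' τ).const_mul (P.A - P.Bv)).div_const 2)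
  refine HasDerivAt.congr_of_eventuallyEq ?_ (Eventually.of_forall fun x => lsum_eq P hS hP x (c x))
  refine h1.congr_deriv ?_
  have e : timeDen (P.V f f1 f2 f3) Par.inc P.cj τ (c τ) =
      (∑ u, -(1 / 2) * ∑ j, P.cj j * P.V f f1 f2 f3 (Par.inc j (Par.inc j 0)) τ (c τ) u) / d := by
    simp only [timeDen, rat, ← hd, ← Finset.sum_div, ← mul_div_assoc]
    rw [← Finset.mul_sum, Finset.sum_comm]
    simp only [Finset.mul_sum]
  dsimp only
  rw [e]
  simp only [rat, ← hd, div_mul_eq_mul_div, ← Finset.sum_div, add_div, mul_one]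
  ring

lemma lsum_deriv (hAB : P.A - P.Bv = -Gam f f1 f2 f3 P.q) {t : ℝ} (h0 : 0 < t) (h1 : t < 1) :
    HasDerivAt (fun x => ∫ g, lsum P f f1 f2 f3 x (field P.a P.b x g) ∂gauss ((ι ⊕ ι) ⊕ (Unit ⊕ ι)))
      (∫ g, (-(1 / 2) * delta P f f1 f2 f3 t (fun _ => 1) (0 : Fin 2) 1 (field P.a P.b t g)
        - Gam f f1 f2 f3 P.q * (1 - P.q) / 2) ∂gauss ((ι ⊕ ι) ⊕ (Unit ⊕ ι))) t := by
  have hV := fam_par hS hP
  set V := P.V f f1 f2 f3
  set Γ := Gam f f1 f2 f3 P.q
  have hle : ∀ v : S × Bool, Par.inc v.2 0 ≤ 2 := fun v => (hV.inc_le v.2 0).trans one_le_two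
  have hHt : BdT (fun s z => timeDen V Par.inc P.cj s z + (P.A - P.Bv) / 2) :=
    ((BdT.const _).mul (BdT.sum _ fun _ _ => (BdT.const _).mul (BdT.sum _ fun _ _ => BdT_rat hV _ _))).add
      (BdT.const _)
  have i1 := integrable_Bd P.a P.b (hHt.bd t) t
  have i2 : ∀ v u, Integrable (fun g => dcov P.a P.b u v *
      ratD V Par.inc (Par.inc v.2 0) v.1 u t (field P.a P.b t g)) (gauss ((ι ⊕ ι) ⊕ (Unit ⊕ ι))) :=
    fun v u => (integrable_Bd P.a P.b ((BdT_ratD hV _ v.1 u).bd t) t).const_mul _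
  refine (interpT P.a P.b (H := lsum P f f1 f2 f3)
    (Ht := fun s z => timeDen V Par.inc P.cj s z + (P.A - P.Bv) / 2)
    (H1 := fun v s z => rat V (Par.inc v.2 0) s z v.1)
    (H2 := fun v u s z => ratD V Par.inc (Par.inc v.2 0) v.1 u s z)
    (Lin_lsum P hS hP) (DerT_lsum P hS hP) hHt (fun v => BdT_rat hV _ _)
    (fun s v => Der_rat hV (hle v) s v.1) (fun v u => BdT_ratD hV _ _ _) h0 h1).congr_deriv ?_
  simp only [← integral_const_mul]
  rw [← Finset.sum_congr rfl fun v _ => integral_finsetSum _ fun u _ => i2 v u,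
    ← integral_finsetSum _ fun v _ => integrable_finsetSum _ fun u _ => i2 v u, ← integral_const_mul,
    ← integral_add i1 ((integrable_finsetSum _ fun v _ => integrable_finsetSum _ fun u _ => i2 v u).const_mul _)]
  refine integral_congr_ae (Eventually.of_forall fun g => ?_)
  set z := field P.a P.b t g
  set r := fun j u => rat V (Par.inc j 0) t z u with hr
  have hone : ∑ u, ∑ v, r false u * r false v = 1 := by
    rw [← Finset.sum_mul_sum]
    simp only [r, Par.inc, sum_rat_zero hV, mul_one]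
  have hdelta : delta P f f1 f2 f3 t (fun _ => 1) (0 : Fin 2) 1 z =
      (∑ u, ∑ v, P.D true u v * (r true u * r true v))
        + (∑ u, ∑ v, P.D false u v * (r false u * r false v)) + Γ * P.q := by
    have e1 : ∀ u v, P.D false u v * (r false u * r false v) =
        -(Γ * (ov P u v * (r false u * r false v))) - Γ * P.q * (r false u * r false v) := fun u v => by
      simp only [Par.D, ov, hAB]; ring
    simp only [e1, Finset.sum_sub_distrib, Finset.sum_neg_distrib, ← Finset.mul_sum, hone]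
    have eT : obs V (fun σ : Fin 2 → S => (1:ℝ) * ov P (σ 0) (σ 1)) (kpair 0 1) t z =
        ∑ u, ∑ v, P.D true u v * (r true u * r true v) := by
      rw [obs_two]
      exact Finset.sum_congr rfl fun u _ => Finset.sum_congr rfl fun v _ => by
        simp [kpair, r, Par.inc, Par.D, ov]
    have eF : obs V (fun σ : Fin 2 → S => (1:ℝ) * ov P (σ 0) (σ 1)) (fun _ => 0) t z =
        ∑ u, ∑ v, ov P u v * (r false u * r false v) := by
      rw [obs_two]
      exact Finset.sum_congr rfl fun u _ => Finset.sum_congr rfl fun v _ => by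
        simp [r, Par.inc]
    simp only [delta]
    rw [eT, eF]
    have hone1 : ∑ u, r false u = 1 := sum_rat_zero hV t z
    simp only [hone1, mul_one]
    ring
  have hsum : ∑ v : S × Bool, ∑ u : S × Bool,
      dcov P.a P.b u v * ratD V Par.inc (Par.inc v.2 0) v.1 u t z =
      (∑ j, P.cj j * ∑ v, rat V (Par.inc j (Par.inc j 0)) t z v)
        - ∑ j, ∑ v, ∑ u, P.D j v u * (r j v * r j u) := by
    simp only [dcov_par hP, Fintype.sum_prod_type, ite_mul, zero_mul, Finset.sum_ite_eq,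
      Finset.mem_univ, if_true]
    rw [Finset.sum_comm, ← Finset.sum_sub_distrib]
    refine Finset.sum_congr rfl fun j _ => ?_
    rw [Finset.mul_sum, ← Finset.sum_sub_distrib]
    refine Finset.sum_congr rfl fun v _ => ?_
    simp only [ratD, mul_sub, mul_ite, mul_zero, Finset.sum_sub_distrib, Finset.sum_ite_eq',
      Finset.mem_univ, if_true, D_diag hP, r]
    exact congrArg₂ _ rfl (Finset.sum_congr rfl fun u _ => by rw [D_symm j u v])
  dsimp only
  rw [hsum, timeDen, Fintype.sum_bool, Fintype.sum_bool, hdelta, hAB]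
  ring

/-- exponential gap moment, with the rate lowered at unit speed -/
lemma gap_antitone (hAB : P.A - P.Bv = -Gam f f1 f2 f3 P.q) {lam : ℝ} (hlam : rate D B ≤ lam) {s : ℝ}
    (hs : s ∈ Icc (0:ℝ) 1) :
    ∫ g, obs (P.V f f1 f2 f3) (fun σ : Fin 2 → S => wex P (lam - s * rate D B) (σ 0) (σ 1)) (fun _ => 0) s
        (field P.a P.b s g) ∂gauss ((ι ⊕ ι) ⊕ (Unit ⊕ ι)) ≤
      ∫ g, obs (P.V f f1 f2 f3) (fun σ : Fin 2 → S => wex P lam (σ 0) (σ 1)) (fun _ => 0) 0
        (field P.a P.b 0 g) ∂gauss ((ι ⊕ ι) ⊕ (Unit ⊕ ι)) := by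
  have hV := fam_par hS hP
  set K := rate D B
  have hK : 0 ≤ K := by unfold K rate; positivity
  set V := P.V f f1 f2 f3
  set G := gauss ((ι ⊕ ι) ⊕ (Unit ⊕ ι))
  set c := fun (τ : Fin 2 → S) (t : ℝ) => Real.exp ((lam - t * K) * ov P (τ 0) (τ 1) ^ 2) with hc
  set J := fun (τ : Fin 2 → S) (t : ℝ) =>
    ∫ g, obs V (fun σ : Fin 2 → S => if σ = τ then 1 else 0) (fun _ => 0) t (field P.a P.b t g) ∂G with hJ
  set X := fun t => ∑ τ, c τ t * J τ t with hX
  have eX : ∀ (Φ : (Fin 2 → S) → ℝ) t, ∫ g, obs V Φ (fun _ => 0) t (field P.a P.b t g) ∂G = ∑ τ, Φ τ * J τ t := by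
    intro Φ t
    simp only [obs_expand V Φ, hJ, ← integral_const_mul]
    exact integral_finsetSum _ fun τ _ => (integrable_Bd P.a P.b ((BdT_obs hV _ _).bd t) t).const_mul _
  have hcont : ContinuousOn X (Icc 0 1) := continuousOn_finsetSum _ fun τ _ =>
    (Continuous.continuousOn (by simp only [hc]; fun_prop)).mul
      (continuousOn_lin P.a P.b (BdT_obs hV _ _).lin)
  have hder : ∀ t ∈ Ioo (0:ℝ) 1, ∃ d, HasDerivAt X d t ∧ d ≤ 0 := by
    intro t ht
    refine ⟨_, HasDerivAt.fun_sum (u := Finset.univ) fun τ _ =>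
      ((((hasDerivAt_id' t).mul_const K).const_sub lam).mul_const (ov P (τ 0) (τ 1) ^ 2)).exp.mul
        (replica_deriv hV (dcov_par hP) (D_diag hP) D_symm (fun σ : Fin 2 → S => if σ = τ then (1:ℝ) else 0)
          (fun _ => zero_le_one) ht.1 ht.2), ?_⟩
    rw [Finset.sum_add_distrib]
    have l0 : 0 ≤ lam - t * K := by
      have := mul_le_of_le_one_left hK ht.2.le
      linarith
    have e1 := eX (sqGap P (lam - t * K)) t
    have e2 : ∫ g, gain V Par.inc P.D (fun σ : Fin 2 → S => wex P (lam - t * K) (σ 0) (σ 1)) (fun _ => 0) t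
        (field P.a P.b t g) ∂G = ∑ τ, c τ t * ∫ g, gain V Par.inc P.D
          (fun σ : Fin 2 → S => if σ = τ then (1:ℝ) else 0) (fun _ => 0) t (field P.a P.b t g) ∂G := by
      simp only [gain_decomp P (fun σ : Fin 2 → S => wex P (lam - t * K) (σ 0) (σ 1)),
        ← integral_const_mul, V]
      exact integral_finsetSum _ fun τ _ => (integrable_Bd P.a P.b ((BdT_gain hV _ _).bd t) t).const_mul _
    have := drift_bound P hS hP hAB l0 (Ioo_subset_Icc_self ht)
    rw [e2, e1, Finset.mul_sum] at this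
    refine le_of_eq_of_le ?_ (sub_nonpos.2 this)
    rw [← Finset.sum_sub_distrib, ← Finset.sum_add_distrib]
    refine Finset.sum_congr rfl fun τ _ => ?_
    simp only [hc, sqGap, wex, hJ, K]
    ring
  have hanti : AntitoneOn X (Icc 0 1) := by
    refine antitoneOn_of_hasDerivWithinAt_nonpos (f' := deriv X) (convex_Icc 0 1) hcont (fun t ht => ?_)
      (fun t ht => ?_) <;> rw [interior_Icc] at ht <;> obtain ⟨d, hd, hd'⟩ := hder t ht
    · exact (hd.deriv ▸ hd).hasDerivWithinAt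
    · rw [hd.deriv]; exact hd'
  have := hanti (left_mem_Icc.2 zero_le_one) hs hs.1
  simp only [hX, hc, zero_mul, sub_zero] at this
  rw [eX, eX]
  exact this

lemma lsum_bound (hAB : P.A - P.Bv = -Gam f f1 f2 f3 P.q) {lam : ℝ} (hlam : rate D B < lam) :
    |(∫ g, lsum P f f1 f2 f3 1 (field P.a P.b 1 g) ∂gauss ((ι ⊕ ι) ⊕ (Unit ⊕ ι)))
        - (∫ g, lsum P f f1 f2 f3 0 (field P.a P.b 0 g) ∂gauss ((ι ⊕ ι) ⊕ (Unit ⊕ ι)))
        + Gam f f1 f2 f3 P.q * (1 - P.q) / 2| ≤
      rate D B / (16 * (lam - rate D B)) *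
        ∫ g, obs (P.V f f1 f2 f3) (fun σ : Fin 2 → S => wex P lam (σ 0) (σ 1)) (fun _ => 0) 0
          (field P.a P.b 0 g) ∂gauss ((ι ⊕ ι) ⊕ (Unit ⊕ ι)) := by
  have hV := fam_par hS hP
  set K := rate D B
  have hK : 0 ≤ K := by unfold K rate; positivity
  obtain ⟨t, ht, he⟩ := exists_hasDerivAt_eq_slope _ _ zero_lt_one
    (continuousOn_lin P.a P.b (Lin_lsum P hS hP)) fun t ht => lsum_deriv P hS hP hAB ht.1 ht.2
  rw [sub_zero, div_one] at he
  rw [← he, integral_sub ((integrable_delta P hS hP _ _ _ _).const_mul _) (integrable_const _),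
    integral_const_mul, integral_const, probReal_univ, one_smul, sub_add_cancel, abs_mul]
  have hl : 0 < lam - t * K := by
    have := mul_le_of_le_one_left hK ht.2.le
    linarith
  have b := delta_bound P hS hP le_rfl (n := 2) (p := (0 : Fin 2)) (p' := 1) (i := 0) (j := 1) (by norm_num)
    (by decide) (by decide) (Φ := fun _ => (1:ℝ)) (fun σ => by simp [wex]) (Ioo_subset_Icc_self ht)
  have hsq : ∀ σ : Fin 2 → S, sqGap P 0 σ ≤ 1 / (lam - K) * wex P (lam - t * K) (σ 0) (σ 1) := by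
    intro σ
    simp only [sqGap, wex, zero_mul, Real.exp_zero, mul_one]
    rw [one_div_mul_eq_div, le_div_iff₀ (by linarith)]
    have h1 := Real.add_one_le_exp ((lam - t * K) * ov P (σ 0) (σ 1) ^ 2)
    have h2 := mul_le_mul_of_nonneg_right (show lam - K ≤ lam - t * K by
      linarith [mul_le_of_le_one_left hK ht.2.le]) (sq_nonneg (ov P (σ 0) (σ 1)))
    linarith
  have hmono : ∫ g, obs (P.V f f1 f2 f3) (sqGap P 0) (fun _ => 0) t (field P.a P.b t g)
      ∂gauss ((ι ⊕ ι) ⊕ (Unit ⊕ ι)) ≤ 1 / (lam - K) *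
      ∫ g, obs (P.V f f1 f2 f3) (fun σ : Fin 2 → S => wex P lam (σ 0) (σ 1)) (fun _ => 0) 0
        (field P.a P.b 0 g) ∂gauss ((ι ⊕ ι) ⊕ (Unit ⊕ ι)) := by
    refine le_trans ?_ (mul_le_mul_of_nonneg_left (gap_antitone P hS hP hAB hlam.le (Ioo_subset_Icc_self ht))
      (one_div_nonneg.2 (by linarith)))
    rw [← integral_const_mul]
    refine integral_mono (integrable_Bd P.a P.b ((BdT_obs hV _ _).bd t) t)
      ((integrable_Bd P.a P.b ((BdT_obs hV _ _).bd t) t).const_mul _) fun g => ?_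
    dsimp only
    rw [obs_smul]
    exact obs_mono hV hsq t _
  have b' := b.trans (mul_le_mul_of_nonneg_left hmono (show 0 ≤ K / 8 by positivity))
  rw [show |(-(1 / 2) : ℝ)| = 1 / 2 by norm_num]
  refine (mul_le_mul_of_nonneg_left b' (by norm_num)).trans (le_of_eq ?_)
  have : lam - K ≠ 0 := by linarith
  field_simp
  ring

omit hS hP

/-- two independent Gaussian vectors -/
lemma split_two {α β : Type} [Fintype α] [Fintype β] {G : (α → ℝ) → (β → ℝ) → ℝ}
    (hG : Integrable (fun g : α ⊕ β → ℝ => G (fun i => g (.inl i)) (fun j => g (.inr j))) (gauss (α ⊕ β))) :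
    ∫ g, G (fun i => g (.inl i)) (fun j => g (.inr j)) ∂gauss (α ⊕ β) = ∫ g, ∫ h, G g h ∂gauss β ∂gauss α := by
  have h := measurePreserving_sumPiEquivProdPi (X := fun _ : α ⊕ β => ℝ) fun _ => gaussianReal 0 1
  have hi : Integrable (fun p : (α → ℝ) × (β → ℝ) => G p.1 p.2) ((gauss α).prod (gauss β)) :=
    (h.integrable_comp_emb (MeasurableEquiv.measurableEmbedding _)).1 hG
  exact (h.integral_comp' (fun p : (α → ℝ) × (β → ℝ) => G p.1 p.2)).trans (integral_prod _ hi)

lemma field_one (g : (ι ⊕ ι) ⊕ (Unit ⊕ ι) → ℝ) (u : S) :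
    field P.a P.b 1 g (u, true) = dot (P.x u) (fun i => g (.inl (.inl i))) ∧
      field P.a P.b 1 g (u, false) = √P.A * dot (P.x u) (fun i => g (.inl (.inr i))) := by
  constructor <;> simp [field, dot, cvec, Par.a, Fintype.sum_sum_type, Finset.mul_sum, mul_assoc]

lemma at_one {F : ℝ → (S × Bool → ℝ) → ℝ} (hF : Lin F) :
    ∫ g, F 1 (field P.a P.b 1 g) ∂gauss ((ι ⊕ ι) ⊕ (Unit ⊕ ι)) =
      ∫ g, ∫ h, F 1 (fun v => if v.2 = true then dot (P.x v.1) g else √P.A * dot (P.x v.1) h) ∂gauss ι ∂gauss ι := by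
  set G := fun g h : ι → ℝ => F 1 (fun v => if v.2 = true then dot (P.x v.1) g else √P.A * dot (P.x v.1) h)
  have e : ∀ g, F 1 (field P.a P.b 1 g) = G (fun i => g (.inl (.inl i))) (fun i => g (.inl (.inr i))) := by
    intro g
    refine congrArg (F 1) (funext fun v => ?_)
    obtain ⟨u, j⟩ := v
    cases j
    · simpa using (field_one P g u).2
    · simpa using (field_one P g u).1
  have hc : Continuous fun g : ι ⊕ ι → ℝ => G (fun i => g (.inl i)) (fun i => g (.inr i)) := by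
    refine hF.1.comp (continuous_const.prodMk (continuous_pi fun v => ?_))
    obtain ⟨u, j⟩ := v
    cases j <;> simp <;> unfold dot <;> fun_prop
  have hi := integrable_lin P.a P.b hF 1 (t := 1) (right_mem_Icc.2 zero_le_one)
  simp only [e] at hi ⊢
  have hm : Measurable fun (g : (ι ⊕ ι) ⊕ (Unit ⊕ ι) → ℝ) k => g (.inl k) := by fun_prop
  have hi' := (integrable_map_measure hc.aestronglyMeasurable hm.aemeasurable).2 hi
  rw [map_left] at hi'
  rw [← split_two hi']
  conv_rhs => rw [← map_left (ι := ι ⊕ ι) (κ := Unit ⊕ ι)]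
  exact (integral_map hm.aemeasurable hc.aestronglyMeasurable).symm

/-- one pattern against one unit of cavity field, for the free energy and for the gap moment -/
theorem one_pattern (hS : Smooth f f1 f2 f3 B D L) {x : S → ι → ℝ} {q : ℝ} {W : S → ℝ}
    (hx : ∀ σ, dot (x σ) (x σ) = 1) (hq0 : 0 ≤ q) (hq1 : q ≤ 1) (hW : ∀ σ, 0 < W σ) (m : ℕ) {lam : ℝ}
    (hlam : rate D B < lam) (E : S → ℝ) :
    |avg f x (ffield x (m * Gam f f1 f2 f3 q) (lse W)) E
        - ffield x ((m + 1) * Gam f f1 f2 f3 q) (lse W) E - incr f f1 f2 f3 q| ≤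
        rate D B / (16 * (lam - rate D B)) * ffield x ((m + 1) * Gam f f1 f2 f3 q) (psi x q W lam) E ∧
      avg f x (ffield x (m * Gam f f1 f2 f3 q) (psi x q W (lam - rate D B))) E ≤
        ffield x ((m + 1) * Gam f f1 f2 f3 q) (psi x q W lam) E := by
  set P := stepPar f f1 f2 f3 x q W m E with hPdef
  set Γ := Gam f f1 f2 f3 q
  have hΓ : 0 ≤ Γ := Gam_nonneg q
  have hP : P.Ok := ⟨hx, hq0, hq1, mul_nonneg (Nat.cast_nonneg m) hΓ,
    mul_nonneg (by positivity) hΓ, fun σ => mul_pos (hW σ) (Real.exp_pos _)⟩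
  have hV := fam_par hS hP
  have hAB : P.A - P.Bv = -Gam f f1 f2 f3 P.q := by
    show (m:ℝ) * Γ - ((m:ℝ) + 1) * Γ = -Γ
    ring
  have hbase : ∀ (Φ : (Fin 2 → S) → ℝ) (e : S → ℝ), base P.w Φ e = base W Φ (E + e) := fun Φ e => by
    simp only [base, gibbs, P, stepPar, Pi.add_apply, Real.exp_add, mul_assoc]
  have hone : ∀ z, lsum P f f1 f2 f3 1 z = lse W (E + fun u => f (z (u, true)) + z (u, false)) := fun z => by
    simp only [lsum, lse, P, stepPar, sm_one hS, ee, Pi.add_apply, Real.exp_add, mul_assoc]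
  have hobs1 : ∀ (Φ : (Fin 2 → S) → ℝ) z, obs (P.V f f1 f2 f3) Φ (fun _ => 0) 1 z =
      base W Φ (E + fun u => f (z (u, true)) + z (u, false)) := fun Φ z => by
    simp only [obs, base, rat_factor hS hP]
    simp only [gibbs, P, stepPar, sm_one hS, ee, Pi.add_apply, Real.exp_add,
      mul_assoc]
  have hadd : ∀ g h : ι → ℝ, (E + fun u => f (dot (x u) g) + √((m:ℝ) * Γ) * dot (x u) h) =
      E + Lim.inc f x g + fun u => √((m:ℝ) * Γ) * dot (x u) h := fun g h => by
    funext u; simp only [Pi.add_apply, Lim.inc]; ring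
  have P1 : ∫ g, lsum P f f1 f2 f3 1 (field P.a P.b 1 g) ∂gauss ((ι ⊕ ι) ⊕ (Unit ⊕ ι)) =
      avg f x (ffield x (m * Γ) (lse W)) E := by
    rw [at_one P (Lin_lsum P hS hP)]
    simp only [hone, avg, ffield]
    refine integral_congr_ae (Eventually.of_forall fun g => integral_congr_ae (Eventually.of_forall fun h => ?_))
    exact congrArg (lse W) (by simpa [P, stepPar] using hadd g h)
  have X1 : ∀ l, ∫ g, obs (P.V f f1 f2 f3) (fun σ : Fin 2 → S => wex P l (σ 0) (σ 1)) (fun _ => 0) 1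
      (field P.a P.b 1 g) ∂gauss ((ι ⊕ ι) ⊕ (Unit ⊕ ι)) = avg f x (ffield x (m * Γ) (psi x q W l)) E := by
    intro l
    rw [at_one P (BdT_obs hV _ _).lin]
    simp only [hobs1, avg, ffield, psi]
    refine integral_congr_ae (Eventually.of_forall fun g => integral_congr_ae (Eventually.of_forall fun h => ?_))
    exact congrArg (base W _) (by simpa [P, stepPar] using hadd g h)
  have X0 : ∫ g, obs (P.V f f1 f2 f3) (fun σ : Fin 2 → S => wex P lam (σ 0) (σ 1)) (fun _ => 0) 0
      (field P.a P.b 0 g) ∂gauss ((ι ⊕ ι) ⊕ (Unit ⊕ ι)) = ffield x ((m + 1) * Γ) (psi x q W lam) E := by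
    rw [decouple_zero P hS hP]
    simp only [div_self (sm_zero_pos hS _ _ _).ne', Finset.prod_const_one, integral_const, probReal_univ,
      one_smul, one_mul, hbase]
    rfl
  have P0 : ∫ g, lsum P f f1 f2 f3 0 (field P.a P.b 0 g) ∂gauss ((ι ⊕ ι) ⊕ (Unit ⊕ ι)) =
      (∫ y, Real.log (sm (ee f f1 f2 f3 0) (1 - q) 0 (√q * y)) ∂gaussianReal 0 1)
        + ffield x ((m + 1) * Γ) (lse W) E := by
    set φ := fun y => Real.log (sm (ee f f1 f2 f3 0) (1 - q) 0 (√q * y))
    set ψ := fun h : ι → ℝ => lse W (E + fun u => √(((m:ℝ) + 1) * Γ) * dot (x u) h)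
    have e : ∀ g, lsum P f f1 f2 f3 0 (field P.a P.b 0 g) =
        φ (g (.inr (.inl ()))) + ψ (fun i => g (.inr (.inr i))) := by
      intro g
      have ht : ∀ u, field P.a P.b 0 g (u, true) = √q * g (.inr (.inl ())) := fun u => by
        simp [field, dot, cvec, Par.b, Fintype.sum_sum_type, P, stepPar]
      have hf : ∀ u, field P.a P.b 0 g (u, false) =
          √(((m:ℝ) + 1) * Γ) * dot (x u) (fun i => g (.inr (.inr i))) := fun u => by
        simp [field, dot, cvec, Par.b, Fintype.sum_sum_type, Finset.mul_sum, mul_assoc, P, stepPar, Γ]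
      simp only [lsum, ht, hf, φ, ψ, lse]
      rw [← Real.log_mul (sm_zero_pos hS _ _ _).ne'
        (Finset.sum_pos (fun u _ => mul_pos (hW u) (Real.exp_pos _)) Finset.univ_nonempty).ne', Finset.mul_sum]
      refine congrArg Real.log (Finset.sum_congr rfl fun u _ => ?_)
      simp only [P, stepPar, Pi.add_apply, Real.exp_add]
      ring
    have hφc : Continuous φ := Continuous.log
      ((continuous_sm hS _ _).comp (by fun_prop : Continuous fun y : ℝ => ((0:ℝ), √q * y)))
      fun y => (sm_zero_pos hS _ _ _).ne'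
    have hψc : Continuous ψ := (good_lse hW).continuous.comp (by unfold dot; fun_prop)
    have iφ : Integrable (fun g : (ι ⊕ ι) ⊕ (Unit ⊕ ι) → ℝ => φ (g (.inr (.inl ()))))
        (gauss ((ι ⊕ ι) ⊕ (Unit ⊕ ι))) := by
      refine Integrable.of_bound (hφc.comp (continuous_apply _)).aestronglyMeasurable B
        (Eventually.of_forall fun g => ?_)
      obtain ⟨a, b⟩ := sm_zero_bounds hS (1 - q) 0 (√q * g (.inr (.inl ())))
      have a' := Real.log_le_log (Real.exp_pos _) a
      have b' := Real.log_le_log (sm_zero_pos hS _ _ _) b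
      rw [Real.log_exp] at a' b'
      rw [Real.norm_eq_abs, abs_le]
      exact ⟨a', b'⟩
    have hi := integrable_lin P.a P.b (Lin_lsum P hS hP) 0 (t := 0) (left_mem_Icc.2 zero_le_one)
    simp only [e] at hi ⊢
    have iψ : Integrable (fun g : (ι ⊕ ι) ⊕ (Unit ⊕ ι) → ℝ => ψ (fun i => g (.inr (.inr i))))
        (gauss ((ι ⊕ ι) ⊕ (Unit ⊕ ι))) :=
      (hi.sub iφ).congr (Eventually.of_forall fun g => by simp)
    rw [integral_add iφ iψ]
    congr 1
    · exact integral_comp_eval (μ := fun _ : (ι ⊕ ι) ⊕ (Unit ⊕ ι) => gaussianReal 0 1) hφc.aestronglyMeasurable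
    · have m1 : Measurable fun (g : (ι ⊕ ι) ⊕ (Unit ⊕ ι) → ℝ) k => g (.inr k) := by fun_prop
      have m2 : Measurable fun (g : Unit ⊕ ι → ℝ) k => g (.inr k) := by fun_prop
      show _ = ∫ h, ψ h ∂gauss ι
      conv_rhs => rw [← map_right (ι := Unit) (κ := ι), ← map_right (ι := ι ⊕ ι) (κ := Unit ⊕ ι),
        Measure.map_map m2 m1]
      exact (integral_map (m2.comp m1).aemeasurable hψc.aestronglyMeasurable).symm
  constructor
  · have h := lsum_bound P hS hP hAB hlam
    rw [P1, P0, X0] at h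
    refine le_of_eq_of_le (congrArg _ ?_) h
    simp only [incr, P, stepPar, Γ]
    ring
  · have h := gap_antitone P hS hP hAB hlam.le (s := 1) (right_mem_Icc.2 zero_le_one)
    rw [one_mul, X1, X0] at h
    exact h

end Vale.Agent.P157.RS
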