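import Vale.Agent.P157.RS.Calc

/-! Replicated observables and their derivative along an interpolation. -/

open MeasureTheory ProbabilityTheory Set Filter
open scoped Topology
open Vale.Agent.P150 (gauss dot)
open Vale.Agent.P157.Lim

namespace Vale.Agent.P157.RS

set_option linter.unusedSectionVars false

variable {S J : Type} [Fintype S] [Fintype J] [DecidableEq S] [DecidableEq J] [Nonempty S]

/-- a family of weights: `V 0` is the weight, `V k` its derivatives -/
structure Fam (V : ℕ → ℝ → (S × J → ℝ) → S → ℝ) (inc : J → ℕ → ℕ) (cj : J → ℝ) (C : ℕ → ℝ) : Prop where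
  pos : ∀ s z σ, 0 < V 0 s z σ
  le : ∀ k s z σ, |V k s z σ| ≤ C k * V 0 s z σ
  cont : ∀ k σ, Continuous fun p : ℝ × (S × J → ℝ) => V k p.1 p.2 σ
  dz : ∀ k ≤ 2, ∀ s σ, Der (fun z => V k s z σ)
    (fun v z => if v.1 = σ then V (inc v.2 k) s z σ else 0)
  dt : ∀ k ≤ 1, ∀ σ, DerT (fun s z => V k s z σ)
    (fun s z => -(1 / 2) * ∑ j, cj j * V (inc j (inc j k)) s z σ)
    (fun v s z => if v.1 = σ then V (inc v.2 k) s z σ else 0)
  inc_le : ∀ j k, inc j k ≤ k + 1

variable (V : ℕ → ℝ → (S × J → ℝ) → S → ℝ) (inc : J → ℕ → ℕ) (cj : J → ℝ)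

/-- normalisation -/
noncomputable def tsum0 (s : ℝ) (z : S × J → ℝ) : ℝ := ∑ u, V 0 s z u

/-- normalised weight derivatives -/
noncomputable def rat (k : ℕ) (s : ℝ) (z : S × J → ℝ) (σ : S) : ℝ := V k s z σ / tsum0 V s z

/-- replicated observable -/
noncomputable def obs {n : ℕ} (Φ : (Fin n → S) → ℝ) (k : Fin n → ℕ) (s : ℝ) (z : S × J → ℝ) : ℝ :=
  ∑ σ, Φ σ * ∏ l, rat V (k l) s z (σ l)

/-- time derivative of the normalisation, divided by it -/
noncomputable def timeDen (s : ℝ) (z : S × J → ℝ) : ℝ :=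
  -(1 / 2) * ∑ j, cj j * ∑ u, rat V (inc j (inc j 0)) s z u

/-- time derivative of an observable -/
noncomputable def obsT {n : ℕ} (Φ : (Fin n → S) → ℝ) (k : Fin n → ℕ) (s : ℝ) (z : S × J → ℝ) : ℝ :=
  (∑ l, -(1 / 2) * ∑ j, cj j * obs V Φ (Function.update k l (inc j (inc j (k l)))) s z)
    - n * obs V Φ k s z * timeDen V inc cj s z

/-- gradient of an observable -/
noncomputable def obsD {n : ℕ} (Φ : (Fin n → S) → ℝ) (k : Fin n → ℕ) (v : S × J) (s : ℝ)
    (z : S × J → ℝ) : ℝ :=
  (∑ l, obs V (fun σ => Φ σ * if σ l = v.1 then 1 else 0) (Function.update k l (inc v.2 (k l))) s z)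
    - n * obs V Φ k s z * rat V (inc v.2 0) s z v.1

/-- gradient of `rat` -/
noncomputable def ratD (k : ℕ) (σ : S) (v : S × J) (s : ℝ) (z : S × J → ℝ) : ℝ :=
  (if v.1 = σ then rat V (inc v.2 k) s z σ else 0) - rat V k s z σ * rat V (inc v.2 0) s z v.1

/-- Hessian of an observable -/
noncomputable def obsDD {n : ℕ} (Φ : (Fin n → S) → ℝ) (k : Fin n → ℕ) (v u : S × J) (s : ℝ)
    (z : S × J → ℝ) : ℝ :=
  (∑ l, obsD V inc (fun σ => Φ σ * if σ l = v.1 then 1 else 0) (Function.update k l (inc v.2 (k l))) u s z)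
    - n * (obsD V inc Φ k u s z * rat V (inc v.2 0) s z v.1
      + obs V Φ k s z * ratD V inc (inc v.2 0) v.1 u s z)

variable {V inc cj} {C : ℕ → ℝ} (hV : Fam V inc cj C)
include hV

lemma tsum0_pos (s : ℝ) (z : S × J → ℝ) : 0 < tsum0 V s z :=
  Finset.sum_pos (fun u _ => hV.pos s z u) Finset.univ_nonempty

lemma rat_zero_pos (s : ℝ) (z : S × J → ℝ) (σ : S) : 0 < rat V 0 s z σ :=
  div_pos (hV.pos s z σ) (tsum0_pos hV s z)

lemma sum_rat_zero (s : ℝ) (z : S × J → ℝ) : ∑ σ, rat V 0 s z σ = 1 := by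
  simp only [rat, ← Finset.sum_div]
  exact div_self (tsum0_pos hV s z).ne'

lemma rat_zero_le_one (s : ℝ) (z : S × J → ℝ) (σ : S) : rat V 0 s z σ ≤ 1 :=
  (Finset.single_le_sum (fun u _ => (rat_zero_pos hV s z u).le) (Finset.mem_univ σ)).trans
    (sum_rat_zero hV s z).le

lemma abs_rat_le (k : ℕ) (s : ℝ) (z : S × J → ℝ) (σ : S) :
    |rat V k s z σ| ≤ C k * rat V 0 s z σ := by
  rw [rat, rat, abs_div, abs_of_pos (tsum0_pos hV s z), ← mul_div_assoc]
  exact div_le_div_of_nonneg_right (hV.le k s z σ) (tsum0_pos hV s z).le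

lemma C_nonneg (k : ℕ) : 0 ≤ C k := by
  obtain ⟨σ⟩ := (inferInstance : Nonempty S)
  exact nonneg_of_mul_nonneg_left ((abs_nonneg _).trans (hV.le k 0 0 σ)) (hV.pos 0 0 σ)

lemma BdT_rat (k : ℕ) (σ : S) : BdT (fun s z => rat V k s z σ) := by
  refine ⟨(hV.cont k σ).div (continuous_finsetSum _ fun u _ => hV.cont 0 u)
    fun p => (tsum0_pos hV p.1 p.2).ne', C k, fun s z => ?_⟩
  exact (abs_rat_le hV k s z σ).trans
    (mul_le_of_le_one_right (C_nonneg hV k) (rat_zero_le_one hV s z σ))

lemma BdT_obs {n : ℕ} (Φ : (Fin n → S) → ℝ) (k : Fin n → ℕ) : BdT (fun s z => obs V Φ k s z) :=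
  BdT.sum _ fun _ _ => (BdT.const _).mul (BdT.prod _ fun _ _ => BdT_rat hV _ _)

lemma BdT_obsD {n : ℕ} (Φ : (Fin n → S) → ℝ) (k : Fin n → ℕ) (v : S × J) :
    BdT (fun s z => obsD V inc Φ k v s z) :=
  (BdT.sum _ fun _ _ => BdT_obs hV _ _).sub (((BdT.const _).mul (BdT_obs hV _ _)).mul (BdT_rat hV _ _))

lemma BdT_obsT {n : ℕ} (Φ : (Fin n → S) → ℝ) (k : Fin n → ℕ) :
    BdT (fun s z => obsT V inc cj Φ k s z) :=
  (BdT.sum _ fun _ _ => (BdT.const _).mul (BdT.sum _ fun _ _ => (BdT.const _).mul (BdT_obs hV _ _))).sub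
    (((BdT.const _).mul (BdT_obs hV _ _)).mul
      ((BdT.const _).mul (BdT.sum _ fun _ _ => (BdT.const _).mul (BdT.sum _ fun _ _ => BdT_rat hV _ _))))

lemma BdT_ratD (k : ℕ) (σ : S) (v : S × J) : BdT (fun s z => ratD V inc k σ v s z) := by
  refine BdT.sub ?_ ((BdT_rat hV _ _).mul (BdT_rat hV _ _))
  split_ifs
  · exact BdT_rat hV _ _
  · exact BdT.const 0

lemma BdT_obsDD {n : ℕ} (Φ : (Fin n → S) → ℝ) (k : Fin n → ℕ) (v u : S × J) :
    BdT (fun s z => obsDD V inc Φ k v u s z) :=
  (BdT.sum _ fun _ _ => BdT_obsD hV _ _ _).sub ((BdT.const _).mul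
    (((BdT_obsD hV _ _ _).mul (BdT_rat hV _ _)).add ((BdT_obs hV _ _).mul (BdT_ratD hV _ _ _))))

lemma Der_rat {k : ℕ} (hk : k ≤ 2) (s : ℝ) (σ : S) :
    Der (fun z => rat V k s z σ) (fun v z => ratD V inc k σ v s z) := by
  intro c c' τ hc
  have hden : HasDerivAt (fun x => tsum0 V s (c x))
      (∑ v : S × J, V (inc v.2 0) s (c τ) v.1 * c' v) τ := by
    refine (HasDerivAt.fun_sum (u := Finset.univ) fun u _ => hV.dz 0 (by omega) s u c c' τ hc).congr_deriv ?_
    rw [Finset.sum_comm]
    exact Finset.sum_congr rfl fun v _ => by simp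
  refine ((hV.dz k hk s σ c c' τ hc).div hden (tsum0_pos hV s (c τ)).ne').congr_deriv ?_
  have h0 := (tsum0_pos hV s (c τ)).ne'
  simp only [ratD, rat, Finset.sum_mul, Finset.mul_sum, ← Finset.sum_sub_distrib, Finset.sum_div]
  refine Finset.sum_congr rfl fun v _ => ?_
  split_ifs <;> (field_simp <;> ring)

lemma DerT_rat {k : ℕ} (hk : k ≤ 1) (σ : S) :
    DerT (fun s z => rat V k s z σ)
      (fun s z => -(1 / 2) * ∑ j, cj j * rat V (inc j (inc j k)) s z σ
        - rat V k s z σ * timeDen V inc cj s z)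
      (fun v s z => ratD V inc k σ v s z) := by
  intro c c' τ hτ hc
  have hden : HasDerivAt (fun x => tsum0 V x (c x))
      ((∑ u, -(1 / 2) * ∑ j, cj j * V (inc j (inc j 0)) τ (c τ) u) +
        ∑ v : S × J, V (inc v.2 0) τ (c τ) v.1 * c' v) τ := by
    refine (HasDerivAt.fun_sum (u := Finset.univ) fun u _ =>
      hV.dt 0 zero_le_one u c c' τ hτ hc).congr_deriv ?_
    rw [Finset.sum_add_distrib]
    congr 1
    rw [Finset.sum_comm]
    exact Finset.sum_congr rfl fun v _ => by simp
  refine ((hV.dt k hk σ c c' τ hτ hc).div hden (tsum0_pos hV τ (c τ)).ne').congr_deriv ?_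
  have h0 := (tsum0_pos hV τ (c τ)).ne'
  set d := tsum0 V τ (c τ) with hd
  set A := -(1 / 2) * ∑ j, cj j * V (inc j (inc j k)) τ (c τ) σ
  set Bv := ∑ v : S × J, (if v.1 = σ then V (inc v.2 k) τ (c τ) σ else 0) * c' v
  set A0 := ∑ u, -(1 / 2) * ∑ j, cj j * V (inc j (inc j 0)) τ (c τ) u with hA0
  set B0 := ∑ v : S × J, V (inc v.2 0) τ (c τ) v.1 * c' v
  have e1 : -(1 / 2) * ∑ j, cj j * rat V (inc j (inc j k)) τ (c τ) σ = A / d := by
    simp only [A, rat, ← mul_div_assoc, ← Finset.sum_div, ← hd]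
  have e2 : timeDen V inc cj τ (c τ) = A0 / d := by
    rw [timeDen, hA0]
    simp only [rat, ← hd, ← Finset.sum_div, ← mul_div_assoc]
    rw [← Finset.mul_sum, Finset.sum_comm]
    simp only [Finset.mul_sum]
  have e3 : ∑ v, ratD V inc k σ v τ (c τ) * c' v = Bv / d - rat V k τ (c τ) σ * (B0 / d) := by
    simp only [Bv, B0, Finset.sum_div, Finset.mul_sum, ← Finset.sum_sub_distrib, ratD, rat, ← hd]
    refine Finset.sum_congr rfl fun v _ => ?_
    split_ifs <;> (field_simp <;> ring)
  dsimp only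
  rw [e1, e2, e3, rat, ← hd]
  field_simp
  ring

omit hV

lemma prod_rule {n : ℕ} (r α : Fin n → ℝ) (β : ℝ) :
    ∑ l, (∏ m ∈ Finset.univ.erase l, r m) • (α l - r l * β) =
      (∑ l, ∏ m, Function.update r l (α l) m) - n * (∏ m, r m) * β := by
  have e : ∀ l, (∏ m ∈ Finset.univ.erase l, r m) • (α l - r l * β) =
      (∏ m, Function.update r l (α l) m) - (∏ m, r m) * β := fun l => by
    rw [Finset.prod_update_of_mem (Finset.mem_univ l), ← Finset.erase_eq, smul_eq_mul,
      ← Finset.mul_prod_erase Finset.univ r (Finset.mem_univ l)]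
    ring
  simp only [e, Finset.sum_sub_distrib, Finset.sum_const, Finset.card_univ, Fintype.card_fin, nsmul_eq_mul]
  ring

lemma prod_upd {n : ℕ} (k : Fin n → ℕ) (l : Fin n) (a : ℕ) (s : ℝ) (z : S × J → ℝ) (σ : Fin n → S) :
    ∏ m, rat V (Function.update k l a m) s z (σ m) =
      ∏ m, Function.update (fun m => rat V (k m) s z (σ m)) l (rat V a s z (σ l)) m := by
  refine Finset.prod_congr rfl fun m _ => ?_
  rcases eq_or_ne m l with rfl | h <;> simp [*]

lemma obs_smul {n : ℕ} (Φ : (Fin n → S) → ℝ) (k : Fin n → ℕ) (s : ℝ) (z : S × J → ℝ) (c : ℝ) :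
    c * obs V Φ k s z = obs V (fun σ => c * Φ σ) k s z := by
  simp only [obs, Finset.mul_sum, mul_assoc]

lemma obs_sum {α : Type*} (A : Finset α) {n : ℕ} (Φ : α → (Fin n → S) → ℝ) (k : Fin n → ℕ) (s : ℝ)
    (z : S × J → ℝ) :
    ∑ i ∈ A, obs V (Φ i) k s z = obs V (fun σ => ∑ i ∈ A, Φ i σ) k s z := by
  simp only [obs]
  rw [Finset.sum_comm]
  simp only [Finset.sum_mul]

/-- absorbing one more replica -/
lemma obs_snoc {n : ℕ} (Ψ : (Fin n → S) → S → ℝ) (k : Fin n → ℕ) (a : ℕ) (s : ℝ) (z : S × J → ℝ) :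
    ∑ u, rat V a s z u * obs V (fun σ => Ψ σ u) k s z =
      obs V (fun σ : Fin (n + 1) → S => Ψ (Fin.init σ) (σ (Fin.last n))) (Fin.snoc k a) s z := by
  simp only [obs, Finset.mul_sum]
  conv_rhs => rw [← (Fin.snocEquiv fun _ => S).sum_comp, Fintype.sum_prod_type]
  refine Finset.sum_congr rfl fun u _ => Finset.sum_congr rfl fun σ _ => ?_
  rw [Fin.prod_univ_castSucc]
  simp [Fin.snocEquiv]
  ring

include hV

lemma Der_obs {n : ℕ} (Φ : (Fin n → S) → ℝ) {k : Fin n → ℕ} (hk : ∀ l, k l ≤ 2) (s : ℝ) :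
    Der (fun z => obs V Φ k s z) (fun v z => obsD V inc Φ k v s z) := by
  intro c c' τ hc
  unfold obs
  refine (HasDerivAt.fun_sum (u := Finset.univ) fun σ _ => HasDerivAt.const_mul (Φ σ)
    (HasDerivAt.fun_finsetProd (u := Finset.univ) fun l _ =>
      Der_rat hV (hk l) s (σ l) c c' τ hc)).congr_deriv ?_
  have e : ∀ σ : Fin n → S, ∀ l, ∑ v, ratD V inc (k l) (σ l) v s (c τ) * c' v =
      (∑ v : S × J, (if v.1 = σ l then rat V (inc v.2 (k l)) s (c τ) (σ l) else 0) * c' v)
        - rat V (k l) s (c τ) (σ l) * ∑ v : S × J, rat V (inc v.2 0) s (c τ) v.1 * c' v := fun σ l => by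
    simp only [ratD, Finset.mul_sum, ← Finset.sum_sub_distrib]
    exact Finset.sum_congr rfl fun v _ => by ring
  simp only [e, prod_rule]
  simp only [obsD, obs, sub_mul, mul_sub, Finset.sum_sub_distrib]
  congr 1
  · simp only [Finset.sum_mul, Finset.mul_sum]
    rw [Finset.sum_comm]
    conv_rhs => rw [Finset.sum_comm]
    refine Finset.sum_congr rfl fun l _ => ?_
    conv_rhs => rw [Finset.sum_comm]
    refine Finset.sum_congr rfl fun σ _ => ?_
    rw [Finset.prod_update_of_mem (Finset.mem_univ l), ← Finset.erase_eq, Finset.sum_mul, Finset.mul_sum]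
    refine Finset.sum_congr rfl fun v _ => ?_
    rw [prod_upd, Finset.prod_update_of_mem (Finset.mem_univ l), ← Finset.erase_eq]
    by_cases h : σ l = v.1
    · simp [h]; ring
    · simp [h, Ne.symm h]
  · simp only [Finset.sum_mul, Finset.mul_sum]
    rw [Finset.sum_comm]
    exact Finset.sum_congr rfl fun v _ => Finset.sum_congr rfl fun σ _ => by ring

lemma DerT_obs {n : ℕ} (Φ : (Fin n → S) → ℝ) {k : Fin n → ℕ} (hk : ∀ l, k l ≤ 1) :
    DerT (fun s z => obs V Φ k s z) (fun s z => obsT V inc cj Φ k s z)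
      (fun v s z => obsD V inc Φ k v s z) := by
  intro c c' τ hτ hc
  unfold obs
  refine (HasDerivAt.fun_sum (u := Finset.univ) fun σ _ => HasDerivAt.const_mul (Φ σ)
    (HasDerivAt.fun_finsetProd (u := Finset.univ) fun l _ =>
      DerT_rat hV (hk l) (σ l) c c' τ hτ hc)).congr_deriv ?_
  have hsp := Der_obs hV Φ (fun l => (hk l).trans one_le_two) τ c c' τ hc
  have hsp' : HasDerivAt (fun x => obs V Φ k τ (c x))
      (∑ σ, Φ σ * ∑ l, (∏ m ∈ Finset.univ.erase l, rat V (k m) τ (c τ) (σ m)) •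
        ∑ v, ratD V inc (k l) (σ l) v τ (c τ) * c' v) τ := by
    unfold obs
    exact HasDerivAt.fun_sum (u := Finset.univ) fun σ _ => HasDerivAt.const_mul (Φ σ)
      (HasDerivAt.fun_finsetProd (u := Finset.univ) fun l _ =>
        Der_rat hV ((hk l).trans one_le_two) τ (σ l) c c' τ hc)
  rw [hsp.unique hsp']
  simp only [smul_add, Finset.sum_add_distrib, mul_add]
  congr 1
  simp only [prod_rule, mul_sub, Finset.sum_sub_distrib, obsT, obs]
  congr 1
  · simp only [Finset.mul_sum]
    rw [Finset.sum_comm]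
    refine Finset.sum_congr rfl fun l _ => ?_
    rw [Finset.sum_comm]
    refine Finset.sum_congr rfl fun σ _ => ?_
    rw [Finset.prod_update_of_mem (Finset.mem_univ l), ← Finset.erase_eq, Finset.sum_mul, Finset.mul_sum]
    refine Finset.sum_congr rfl fun j _ => ?_
    rw [prod_upd, Finset.prod_update_of_mem (Finset.mem_univ l), ← Finset.erase_eq]
    ring
  · simp only [Finset.sum_mul, Finset.mul_sum]
    exact Finset.sum_congr rfl fun σ _ => by ring

lemma Der_obsD {n : ℕ} (Φ : (Fin n → S) → ℝ) {k : Fin n → ℕ} (hk : ∀ l, k l ≤ 1) (v : S × J) (s : ℝ) :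
    Der (fun z => obsD V inc Φ k v s z) (fun u z => obsDD V inc Φ k v u s z) := by
  intro c c' τ hc
  have hk2 : ∀ l, k l ≤ 2 := fun l => (hk l).trans one_le_two
  have hup : ∀ l m, Function.update k l (inc v.2 (k l)) m ≤ 2 := fun l m => by
    rcases eq_or_ne m l with rfl | h
    · rw [Function.update_self]; exact (hV.inc_le _ _).trans (by linarith [hk m])
    · rw [Function.update_of_ne h]; exact hk2 m
  refine ((HasDerivAt.fun_sum (u := Finset.univ) fun l _ =>
    Der_obs hV (fun σ => Φ σ * if σ l = v.1 then 1 else 0) (hup l) s c c' τ hc).sub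
    (((Der_obs hV Φ hk2 s c c' τ hc).const_mul (n : ℝ)).mul
      (Der_rat hV ((hV.inc_le _ _).trans one_le_two) s v.1 c c' τ hc))).congr_deriv ?_
  rw [Finset.sum_comm]
  simp only [Finset.mul_sum, Finset.sum_mul, ← Finset.sum_add_distrib, ← Finset.sum_sub_distrib]
  refine Finset.sum_congr rfl fun u _ => ?_
  simp only [obsDD]
  rw [← Finset.sum_mul]
  ring

omit hV

/-- the derivative of a replicated observable along the interpolation -/
noncomputable def gain (V : ℕ → ℝ → (S × J → ℝ) → S → ℝ) (inc : J → ℕ → ℕ) (D : J → S → S → ℝ) {n : ℕ}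
    (Φ : (Fin n → S) → ℝ) (k : Fin n → ℕ) (s : ℝ) (z : S × J → ℝ) : ℝ :=
  1 / 2 * ∑ j,
    ((∑ l, ∑ l', if l' = l then 0 else
        obs V (fun σ => Φ σ * D j (σ l') (σ l))
          (Function.update (Function.update k l (inc j (k l))) l'
            (inc j (Function.update k l (inc j (k l)) l'))) s z)
      - 2 * n * (∑ l, obs V (fun σ : Fin (n + 1) → S => Φ (Fin.init σ) * D j (σ (Fin.last n)) (Fin.init σ l))
          (Fin.snoc (Function.update k l (inc j (k l))) (inc j 0)) s z)
      + n * (n + 1) * obs V (fun σ : Fin (n + 2) → S => Φ (Fin.init (Fin.init σ)) *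
          D j (σ (Fin.last (n + 1))) (Fin.init σ (Fin.last n)))
          (Fin.snoc (Fin.snoc k (inc j 0)) (inc j 0)) s z)

variable {D : J → S → S → ℝ}

lemma algebra_gain {n : ℕ} (hD : ∀ j u, D j u u = cj j) (hsym : ∀ j u v, D j u v = D j v u)
    (Φ : (Fin n → S) → ℝ) (k : Fin n → ℕ) (s : ℝ) (z : S × J → ℝ) :
    obsT V inc cj Φ k s z + 1 / 2 * ∑ v : S × J, ∑ u : S × J,
        (if v.2 = u.2 then D u.2 u.1 v.1 else 0) * obsDD V inc Φ k v u s z =
      gain V inc D Φ k s z := by
  have red : ∀ F : S × J → S × J → ℝ, ∑ v : S × J, ∑ u : S × J,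
      (if v.2 = u.2 then D u.2 u.1 v.1 else 0) * F v u = ∑ j, ∑ v, ∑ u, D j u v * F (v, j) (u, j) := by
    intro F
    simp only [Fintype.sum_prod_type, ite_mul, zero_mul, Finset.sum_ite_eq, Finset.mem_univ, if_true]
    rw [Finset.sum_comm]
  rw [red]
  set O := obs V Φ k s z with hO
  have perj : ∀ j, ∑ v, ∑ u, D j u v * obsDD V inc Φ k (v, j) (u, j) s z =
      (∑ l, ∑ l', obs V (fun σ => Φ σ * D j (σ l') (σ l))
          (Function.update (Function.update k l (inc j (k l))) l'
            (inc j (Function.update k l (inc j (k l)) l'))) s z)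
      - 2 * n * (∑ l, obs V (fun σ : Fin (n + 1) → S => Φ (Fin.init σ) * D j (σ (Fin.last n)) (Fin.init σ l))
          (Fin.snoc (Function.update k l (inc j (k l))) (inc j 0)) s z)
      + n * (n + 1) * obs V (fun σ : Fin (n + 2) → S => Φ (Fin.init (Fin.init σ)) *
          D j (σ (Fin.last (n + 1))) (Fin.init σ (Fin.last n)))
          (Fin.snoc (Fin.snoc k (inc j 0)) (inc j 0)) s z
      - n * (cj j * ∑ v, rat V (inc j (inc j 0)) s z v) * O := by
    intro j
    set r := fun v => rat V (inc j 0) s z v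
    have hA : ∀ (l : Fin n) (k' : Fin n → ℕ) (l' : Fin n),
        ∑ v, ∑ u, D j u v * obs V (fun σ => (Φ σ * if σ l = v then 1 else 0) * if σ l' = u then 1 else 0) k' s z
          = obs V (fun σ => Φ σ * D j (σ l') (σ l)) k' s z := by
      intro l k' l'
      simp only [obs_smul, obs_sum]
      congr 1; funext σ
      simp only [mul_ite, mul_one, mul_zero, Finset.sum_ite_eq, Finset.mem_univ, if_true]
      ring
    have hB : ∀ (l : Fin n) (k' : Fin n → ℕ),
        ∑ v, ∑ u, D j u v * (obs V (fun σ => Φ σ * if σ l = v then 1 else 0) k' s z * r u) =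
          obs V (fun σ : Fin (n + 1) → S => Φ (Fin.init σ) * D j (σ (Fin.last n)) (Fin.init σ l))
            (Fin.snoc k' (inc j 0)) s z := by
      intro l k'
      rw [← obs_snoc (fun σ u => Φ σ * D j u (σ l)) k' (inc j 0) s z, Finset.sum_comm]
      refine Finset.sum_congr rfl fun u _ => ?_
      rw [show (fun σ : Fin n → S => Φ σ * D j u (σ l)) =
          fun σ => ∑ v, D j u v * (Φ σ * if σ l = v then 1 else 0) by
        funext σ; simp [mul_ite, Finset.sum_ite_eq, mul_comm],
        ← obs_sum, Finset.mul_sum]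
      refine Finset.sum_congr rfl fun v _ => ?_
      rw [← obs_smul]
      simp only [r]; ring
    have hB' : ∀ (l : Fin n) (k' : Fin n → ℕ),
        ∑ v, ∑ u, D j u v * (obs V (fun σ => Φ σ * if σ l = u then 1 else 0) k' s z * r v) =
          obs V (fun σ : Fin (n + 1) → S => Φ (Fin.init σ) * D j (σ (Fin.last n)) (Fin.init σ l))
            (Fin.snoc k' (inc j 0)) s z := by
      intro l k'
      rw [← hB l k', Finset.sum_comm]
      exact Finset.sum_congr rfl fun u _ => Finset.sum_congr rfl fun v _ => by rw [hsym j]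
    have hC : ∑ v, ∑ u, D j u v * (O * (r u * r v)) =
        obs V (fun σ : Fin (n + 2) → S => Φ (Fin.init (Fin.init σ)) *
          D j (σ (Fin.last (n + 1))) (Fin.init σ (Fin.last n)))
          (Fin.snoc (Fin.snoc k (inc j 0)) (inc j 0)) s z := by
      rw [← obs_snoc (fun (σ : Fin (n + 1) → S) u => Φ (Fin.init σ) * D j u (σ (Fin.last n))),
        Finset.sum_comm]
      refine Finset.sum_congr rfl fun u _ => ?_
      rw [← obs_snoc (fun σ v => Φ σ * D j u v), Finset.mul_sum]
      refine Finset.sum_congr rfl fun v _ => ?_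
      rw [show (fun σ : Fin n → S => Φ σ * D j u v) = fun σ => D j u v * Φ σ by funext σ; ring, ← obs_smul]
      simp only [r, hO]; ring
    simp only [obsDD, obsD, ratD]
    have hsplit : ∀ v u : S, D j u v *
        ((∑ l, ((∑ l', obs V (fun σ => (Φ σ * if σ l = v then 1 else 0) * if σ l' = u then 1 else 0)
              (Function.update (Function.update k l (inc j (k l))) l'
                (inc j (Function.update k l (inc j (k l)) l'))) s z)
            - n * obs V (fun σ => Φ σ * if σ l = v then 1 else 0) (Function.update k l (inc j (k l))) s z * r u))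
          - n * (((∑ l, obs V (fun σ => Φ σ * if σ l = u then 1 else 0) (Function.update k l (inc j (k l))) s z)
              - n * O * r u) * r v
            + O * ((if u = v then rat V (inc j (inc j 0)) s z v else 0) - r v * r u))) =
        (∑ l, ∑ l', D j u v * obs V (fun σ => (Φ σ * if σ l = v then 1 else 0) * if σ l' = u then 1 else 0)
              (Function.update (Function.update k l (inc j (k l))) l'
                (inc j (Function.update k l (inc j (k l)) l'))) s z)
          - n * (∑ l, D j u v * (obs V (fun σ => Φ σ * if σ l = v then 1 else 0)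
              (Function.update k l (inc j (k l))) s z * r u))
          - n * (∑ l, D j u v * (obs V (fun σ => Φ σ * if σ l = u then 1 else 0)
              (Function.update k l (inc j (k l))) s z * r v))
          + n * (n + 1) * (D j u v * (O * (r u * r v)))
          - n * (if u = v then D j u v * rat V (inc j (inc j 0)) s z v else 0) * O := by
      intro v u
      simp only [Finset.sum_sub_distrib, ← Finset.mul_sum, mul_assoc]
      rw [← Finset.sum_mul, ← Finset.sum_mul]
      split_ifs <;> ring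
    refine (Finset.sum_congr rfl fun v _ => Finset.sum_congr rfl fun u _ => hsplit v u).trans ?_
    simp only [Finset.sum_add_distrib, Finset.sum_sub_distrib, ← Finset.mul_sum, hC,
      Finset.sum_ite_eq', Finset.mem_univ, if_true, hD, ← Finset.sum_mul]
    have t1 : ∀ g : S → S → Fin n → ℝ, ∑ v, ∑ u, ∑ l, g v u l = ∑ l, ∑ v, ∑ u, g v u l := fun g => by
      rw [Finset.sum_congr rfl fun v _ => Finset.sum_comm, Finset.sum_comm]
    simp only [Finset.mul_sum (s := (Finset.univ : Finset (Fin n))),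
      Finset.sum_mul (s := (Finset.univ : Finset (Fin n)))]
    simp only [t1, hA, hB, hB']
    simp only [← Finset.mul_sum]
    ring
  simp only [perj, obsT, timeDen, gain, hO]
  have hT : ∀ g : J → Fin n → ℝ, ∑ l, -(1 / 2) * ∑ j, cj j * g j l = ∑ j, -(1 / 2) * (cj j * ∑ l, g j l) :=
    fun g => by simp only [Finset.mul_sum]; rw [Finset.sum_comm]
  rw [hT]
  simp only [Finset.mul_sum (s := (Finset.univ : Finset J)), ← Finset.sum_sub_distrib,
    ← Finset.sum_add_distrib]
  refine Finset.sum_congr rfl fun j _ => ?_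
  have hdiag : ∀ l, obs V Φ (Function.update k l (inc j (inc j (k l)))) s z * cj j =
      obs V (fun σ => Φ σ * D j (σ l) (σ l))
        (Function.update (Function.update k l (inc j (k l))) l
          (inc j (Function.update k l (inc j (k l)) l))) s z := by
    intro l
    rw [Function.update_self, Function.update_idem, mul_comm, obs_smul]
    simp only [hD, mul_comm]
  have hoff : ∀ l, (∑ l', if l' = l then 0 else
        obs V (fun σ => Φ σ * D j (σ l') (σ l))
          (Function.update (Function.update k l (inc j (k l))) l'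
            (inc j (Function.update k l (inc j (k l)) l'))) s z) =
      (∑ l', obs V (fun σ => Φ σ * D j (σ l') (σ l))
          (Function.update (Function.update k l (inc j (k l))) l'
            (inc j (Function.update k l (inc j (k l)) l'))) s z)
      - cj j * obs V Φ (Function.update k l (inc j (inc j (k l)))) s z := by
    intro l
    rw [mul_comm, hdiag l, ← Finset.sum_erase_eq_sub (Finset.mem_univ l), Finset.sum_ite]
    simp [Finset.filter_ne']
  simp only [← Finset.mul_sum, hoff, Finset.sum_sub_distrib]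
  ring

variable {ι κ : Type} [Fintype ι] [Fintype κ] {a : S × J → ι → ℝ} {b : S × J → κ → ℝ}
include hV

lemma BdT_gain {n : ℕ} (Φ : (Fin n → S) → ℝ) (k : Fin n → ℕ) :
    BdT (fun s z => gain V inc D Φ k s z) := by
  refine (BdT.const _).mul (BdT.sum _ fun j _ => (BdT.sub ?_ ((BdT.const _).mul
    (BdT.sum _ fun _ _ => BdT_obs hV _ _))).add ((BdT.const _).mul (BdT_obs hV _ _)))
  refine BdT.sum _ fun l _ => BdT.sum _ fun l' _ => ?_
  split_ifs
  · exact BdT.const 0
  · exact BdT_obs hV _ _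

lemma replica_deriv (hab : ∀ u v : S × J, dcov a b u v = if v.2 = u.2 then D u.2 u.1 v.1 else 0)
    (hD : ∀ j u, D j u u = cj j) (hsym : ∀ j u v, D j u v = D j v u) {n : ℕ} (Φ : (Fin n → S) → ℝ)
    {k : Fin n → ℕ} (hk : ∀ l, k l ≤ 1) {t : ℝ} (h0 : 0 < t) (h1 : t < 1) :
    HasDerivAt (fun x => ∫ g, obs V Φ k x (field a b x g) ∂gauss (ι ⊕ κ))
      (∫ g, gain V inc D Φ k t (field a b t g) ∂gauss (ι ⊕ κ)) t := by
  have i1 : Integrable (fun g => obsT V inc cj Φ k t (field a b t g)) (gauss (ι ⊕ κ)) :=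
    integrable_Bd a b ((BdT_obsT hV Φ k).bd t) t
  have i2 : ∀ v u, Integrable (fun g => dcov a b u v * obsDD V inc Φ k v u t (field a b t g))
      (gauss (ι ⊕ κ)) := fun v u => (integrable_Bd a b ((BdT_obsDD hV Φ k v u).bd t) t).const_mul _
  refine (interpT a b (H := fun s z => obs V Φ k s z) (Ht := fun s z => obsT V inc cj Φ k s z)
    (H1 := fun v s z => obsD V inc Φ k v s z) (H2 := fun v u s z => obsDD V inc Φ k v u s z)
    (BdT_obs hV Φ k).lin (DerT_obs hV Φ hk) (BdT_obsT hV Φ k) (BdT_obsD hV Φ k)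
    (fun s v => Der_obsD hV Φ hk v s) (BdT_obsDD hV Φ k) h0 h1).congr_deriv ?_
  simp only [← integral_const_mul]
  rw [← Finset.sum_congr rfl fun v _ => integral_finsetSum _ fun u _ => i2 v u,
    ← integral_finsetSum _ fun v _ => integrable_finsetSum _ fun u _ => i2 v u, ← integral_const_mul,
    ← integral_add i1 ((integrable_finsetSum _ fun v _ => integrable_finsetSum _ fun u _ => i2 v u).const_mul _)]
  refine integral_congr_ae (Eventually.of_forall fun g => ?_)
  simp only [hab]
  exact algebra_gain hD hsym Φ k t (field a b t g)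

end Vale.Agent.P157.RS
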