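import Vale.Agent.P157.RS.Smooth
import Vale.Agent.P157.RS.Replica
import Vale.Agent.P157.Lim.Main

/-! The interpolation family: one pattern against a cavity field. -/

open MeasureTheory ProbabilityTheory Set Filter
open scoped Topology RealInnerProductSpace
open Vale.Agent.P150 (gauss dot l1)
open Vale.Agent.P157.Lim

namespace Vale.Agent.P157.RS

set_option linter.unusedSectionVars false

/-- law of a Gaussian field is fixed by its covariance -/
lemma law_eq {S α β : Type} [Fintype S] [Fintype α] [Fintype β] (c : S → α → ℝ) (c' : S → β → ℝ)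
    (h : ∀ u v, dot (c u) (c v) = dot (c' u) (c' v)) {F : (S → ℝ) → ℝ} (hF : Continuous F) :
    ∫ g, F (fun s => dot (c s) g) ∂gauss α = ∫ g, F (fun s => dot (c' s) g) ∂gauss β := by
  classical
  have hch : ∀ {α : Type} [Fintype α] (v : α → ℝ),
      ∫ g, Complex.exp ((dot v g : ℝ) * Complex.I) ∂gauss α = Complex.exp (-((dot v v : ℝ) : ℂ) / 2) := by
    intro α _ v
    have e := charFun_stdGaussian (E := EuclideanSpace ℝ α) (WithLp.toLp 2 v)
    rw [charFun_apply, ← map_pi_eq_stdGaussian, integral_map (by fun_prop) (by fun_prop)] at e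
    have e1 : ∀ g : α → ℝ, ⟪(WithLp.toLp 2 g : EuclideanSpace ℝ α), WithLp.toLp 2 v⟫ = dot v g :=
      fun g => by simp [PiLp.inner_apply, dot]
    have e2 : ‖(WithLp.toLp 2 v : EuclideanSpace ℝ α)‖ ^ 2 = dot v v := by
      rw [EuclideanSpace.real_norm_sq_eq]; simp [dot, sq]
    simp only [e1] at e
    refine e.trans ?_
    congr 2
    rw [← e2]; push_cast; ring
  have hm : ∀ {α : Type} [Fintype α] (c : S → α → ℝ),
      Measurable fun g : α → ℝ => fun s => dot (c s) g := fun c => by unfold dot; fun_prop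
  have hmap : (gauss α).map (fun g s => dot (c s) g) = (gauss β).map (fun g s => dot (c' s) g) := by
    apply Measure.ext_of_charFunDual
    ext L
    rw [charFunDual_apply, charFunDual_apply, integral_map (hm c).aemeasurable (by fun_prop),
      integral_map (hm c').aemeasurable (by fun_prop)]
    set l : S → ℝ := fun s => L (Pi.single s 1)
    have hL : ∀ z : S → ℝ, L z = ∑ s, l s * z s := by
      intro z
      conv_lhs => rw [pi_eq_sum_univ' z]
      simp [map_sum, l, mul_comm]
    have hcomb : ∀ {α : Type} [Fintype α] (c : S → α → ℝ) (g : α → ℝ),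
        L (fun s => dot (c s) g) = dot (fun i => ∑ s, l s * c s i) g := by
      intro α _ c g
      rw [hL]
      simp only [dot, Finset.mul_sum, Finset.sum_mul]
      rw [Finset.sum_comm]
      exact Finset.sum_congr rfl fun i _ => Finset.sum_congr rfl fun s _ => by ring
    have hnorm : ∀ {α : Type} [Fintype α] (c : S → α → ℝ),
        dot (fun i => ∑ s, l s * c s i) (fun i => ∑ s, l s * c s i) =
          ∑ s, ∑ t, l s * l t * dot (c s) (c t) := by
      intro α _ c
      simp only [dot, Finset.sum_mul_sum]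
      rw [Finset.sum_comm]
      refine Finset.sum_congr rfl fun s _ => ?_
      rw [Finset.sum_comm]
      refine Finset.sum_congr rfl fun t _ => ?_
      rw [Finset.mul_sum]
      exact Finset.sum_congr rfl fun i _ => by ring
    simp only [hcomb, hch, hnorm, h]
  have := congrArg (fun μ => ∫ z, F z ∂μ) hmap
  simpa [integral_map (hm c).aemeasurable hF.aestronglyMeasurable,
    integral_map (hm c').aemeasurable hF.aestronglyMeasurable] using this

variable {S ι : Type} [Fintype S] [Fintype ι] [DecidableEq S] [Nonempty S]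

/-- parameters of the family -/
structure Par (S ι : Type) where
  x : S → ι → ℝ
  q : ℝ
  A : ℝ
  Bv : ℝ
  w : S → ℝ

variable (P : Par S ι)

/-- `true`: the pattern, `false`: the cavity field -/
def Par.inc : Bool → ℕ → ℕ
  | true, k => k + 1
  | false, k => k

/-- diagonal coefficients -/
def Par.cj : Bool → ℝ
  | true => 1 - P.q
  | false => P.A - P.Bv

/-- covariance gaps -/
def Par.D : Bool → S → S → ℝ
  | true, u, v => dot (P.x u) (P.x v) - P.q
  | false, u, v => (P.A - P.Bv) * dot (P.x u) (P.x v)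

/-- coefficients at time one -/
noncomputable def Par.a : S × Bool → ι ⊕ ι → ℝ
  | (σ, true) => Sum.elim (P.x σ) (fun _ => 0)
  | (σ, false) => Sum.elim (fun _ => 0) (fun i => √P.A * P.x σ i)

/-- coefficients at time zero -/
noncomputable def Par.b : S × Bool → Unit ⊕ ι → ℝ
  | (_, true) => Sum.elim (fun _ => √P.q) (fun _ => 0)
  | (σ, false) => Sum.elim (fun _ => 0) (fun i => √P.Bv * P.x σ i)

/-- the weights and their derivatives -/
noncomputable def Par.V (f f1 f2 f3 : ℝ → ℝ) (k : ℕ) (s : ℝ) (z : S × Bool → ℝ) (σ : S) : ℝ :=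
  P.w σ * sm (ee f f1 f2 f3 k) (1 - P.q) s (z (σ, true)) *
    Real.exp (z (σ, false) - (P.A - P.Bv) * s / 2)

/-- admissible parameters -/
structure Par.Ok : Prop where
  unit : ∀ σ, dot (P.x σ) (P.x σ) = 1
  q0 : 0 ≤ P.q
  q1 : P.q ≤ 1
  A0 : 0 ≤ P.A
  B0 : 0 ≤ P.Bv
  w0 : ∀ σ, 0 < P.w σ

variable {P}

lemma dcov_par (hP : P.Ok) (u v : S × Bool) :
    dcov P.a P.b u v = if v.2 = u.2 then P.D u.2 u.1 v.1 else 0 := by
  obtain ⟨u, i⟩ := u
  obtain ⟨v, j⟩ := v
  have hA := Real.mul_self_sqrt hP.A0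
  have hB := Real.mul_self_sqrt hP.B0
  have hq := Real.mul_self_sqrt hP.q0
  cases i <;> cases j <;>
    simp only [dcov, dot, Fintype.sum_sum_type, Par.a, Par.b, Sum.elim_inl, Sum.elim_inr, Par.D, mul_zero,
      zero_mul, Finset.sum_const_zero, add_zero, zero_add, Fintype.sum_unique,
      Bool.false_eq_true, Bool.true_eq_false, if_true, if_false, sub_self]
  · have e : ∀ (r : ℝ) (i : ι), √r * P.x u i * (√r * P.x v i) = √r * √r * (P.x u i * P.x v i) :=
      fun r i => by ring
    simp only [e, ← Finset.mul_sum, hA, hB]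
    ring
  · rw [hq]

lemma D_diag (hP : P.Ok) (j : Bool) (u : S) : P.D j u u = P.cj j := by
  cases j <;> simp [Par.D, Par.cj, hP.unit]

lemma D_symm (j : Bool) (u v : S) : P.D j u v = P.D j v u := by
  cases j <;> simp [Par.D, dot, mul_comm]

variable {f f1 f2 f3 : ℝ → ℝ} {B D L : ℝ}

lemma fam_par (hS : Smooth f f1 f2 f3 B D L) (hP : P.Ok) :
    Fam (P.V f f1 f2 f3) Par.inc P.cj (cc D L) where
  pos s z σ := mul_pos (mul_pos (hP.w0 σ) (sm_zero_pos hS _ _ _)) (Real.exp_pos _)
  le k s z σ := by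
    simp only [Par.V, abs_mul, abs_of_pos (hP.w0 σ), Real.abs_exp]
    calc P.w σ * |sm (ee f f1 f2 f3 k) (1 - P.q) s (z (σ, true))| * _
        ≤ P.w σ * (cc D L k * sm (ee f f1 f2 f3 0) (1 - P.q) s (z (σ, true))) * _ :=
          mul_le_mul_of_nonneg_right (mul_le_mul_of_nonneg_left (abs_sm_le hS k _ _ _) (hP.w0 σ).le)
            (Real.exp_pos _).le
      _ = _ := by ring
  cont k σ := by
    unfold Par.V
    refine (continuous_const.mul ?_).mul (by fun_prop)
    exact (continuous_sm hS k (1 - P.q)).comp (by fun_prop : Continuous fun p : ℝ × (S × Bool → ℝ) =>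
      (p.1, p.2 (σ, true)))
  dz k hk s σ := by
    intro c c' τ hc
    have h1 := (hasDeriv_sm hS hk (1 - P.q) s (c τ (σ, true))).comp τ (hc (σ, true))
    have h2 := ((hc (σ, false)).sub_const ((P.A - P.Bv) * s / 2)).exp
    refine ((h1.const_mul (P.w σ)).mul h2).congr_deriv ?_
    simp only [Fintype.sum_prod_type, Fintype.sum_bool, ite_mul, zero_mul, Finset.sum_add_distrib,
      Finset.sum_ite_eq', Finset.mem_univ, if_true, Par.V, Par.inc, Function.comp]
    ring
  dt k hk σ := by
    intro c c' τ hτ hc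
    have hc0 : 0 ≤ 1 - P.q := by linarith [hP.q1]
    have h1 := hasDerivAt_curve (P := fun s v => sm (ee f f1 f2 f3 k) (1 - P.q) s v)
      (Ps := fun s v => -((1 - P.q) / 2) * sm (ee f f1 f2 f3 (k + 2)) (1 - P.q) s v)
      (Ioo_mem_nhds hτ.1 hτ.2) (fun t ht w => heat_sm hS hk hc0 ht.2 w)
      ((continuous_const.mul (continuous_sm hS (k + 2) (1 - P.q))).continuousAt) (hc (σ, true))
      (hasDeriv_sm hS (by omega) (1 - P.q) τ (c τ (σ, true)))
    have h2 := ((hc (σ, false)).sub (((hasDerivAt_id' τ).const_mul (P.A - P.Bv)).div_const 2)).exp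
    refine ((h1.const_mul (P.w σ)).mul h2).congr_deriv ?_
    simp only [Fintype.sum_prod_type, Fintype.sum_bool, ite_mul, zero_mul, Finset.sum_add_distrib,
      Finset.sum_ite_eq', Finset.mem_univ, if_true, Par.V, Par.inc, Par.cj, Pi.sub_apply]
    ring
  inc_le j k := by cases j <;> simp [Par.inc]

/-- Gibbs weights of a plain energy vector -/
noncomputable def gibbs (w E : S → ℝ) (σ : S) : ℝ :=
  w σ * Real.exp (E σ) / ∑ u, w u * Real.exp (E u)

/-- replicated Gibbs average -/
noncomputable def base (w : S → ℝ) {n : ℕ} (Φ : (Fin n → S) → ℝ) (E : S → ℝ) : ℝ :=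
  ∑ σ, Φ σ * ∏ l, gibbs w E (σ l)

section
variable {w : S → ℝ} (hw : ∀ σ, 0 < w σ)
include hw

lemma gibbs_den_pos (E : S → ℝ) : 0 < ∑ u, w u * Real.exp (E u) :=
  Finset.sum_pos (fun u _ => mul_pos (hw u) (Real.exp_pos _)) Finset.univ_nonempty

lemma gibbs_pos (E : S → ℝ) (σ : S) : 0 < gibbs w E σ :=
  div_pos (mul_pos (hw σ) (Real.exp_pos _)) (gibbs_den_pos hw E)

lemma sum_gibbs (E : S → ℝ) : ∑ σ, gibbs w E σ = 1 := by
  simp only [gibbs, ← Finset.sum_div]
  exact div_self (gibbs_den_pos hw E).ne'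

lemma gibbs_le_one (E : S → ℝ) (σ : S) : gibbs w E σ ≤ 1 :=
  (Finset.single_le_sum (fun u _ => (gibbs_pos hw E u).le) (Finset.mem_univ σ)).trans (sum_gibbs hw E).le

lemma continuous_gibbs (σ : S) : Continuous fun E => gibbs w E σ :=
  Continuous.div (by fun_prop) (by fun_prop) fun E => (gibbs_den_pos hw E).ne'

lemma Bd_base {n : ℕ} (Φ : (Fin n → S) → ℝ) : Bd (base w Φ) := by
  refine Bd.sum _ fun σ _ => (Bd.const _).mul ?_
  refine ⟨continuous_finsetProd _ fun l _ => continuous_gibbs hw _, 1, fun E => ?_⟩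
  rw [abs_of_nonneg (Finset.prod_nonneg fun l _ => (gibbs_pos hw E _).le)]
  exact Finset.prod_le_one (fun _ _ => (gibbs_pos hw E _).le) fun _ _ => gibbs_le_one hw E _

lemma base_mono {n : ℕ} {Φ Ψ : (Fin n → S) → ℝ} (h : ∀ σ, Φ σ ≤ Ψ σ) (E : S → ℝ) :
    base w Φ E ≤ base w Ψ E :=
  Finset.sum_le_sum fun σ _ =>
    mul_le_mul_of_nonneg_right (h σ) (Finset.prod_nonneg fun _ _ => (gibbs_pos hw E _).le)

end

section
variable (hS : Smooth f f1 f2 f3 B D L) (hP : P.Ok)
include hS hP

lemma rat_factor (k : ℕ) (s : ℝ) (z : S × Bool → ℝ) (σ : S) :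
    rat (P.V f f1 f2 f3) k s z σ =
      P.w σ * sm (ee f f1 f2 f3 k) (1 - P.q) s (z (σ, true)) * Real.exp (z (σ, false)) /
        ∑ u, P.w u * sm (ee f f1 f2 f3 0) (1 - P.q) s (z (u, true)) * Real.exp (z (u, false)) := by
  simp only [rat, tsum0, Par.V, Real.exp_sub]
  simp only [← mul_div_assoc, ← Finset.sum_div]
  rw [div_div_div_cancel_right₀ (Real.exp_pos _).ne']

/-- comparing with the Gibbs weights without the pattern -/
lemma rat_zero_compare (s : ℝ) (z : S × Bool → ℝ) (σ : S) :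
    Real.exp (-(2 * B)) * gibbs P.w (fun u => z (u, false)) σ ≤ rat (P.V f f1 f2 f3) 0 s z σ ∧
      rat (P.V f f1 f2 f3) 0 s z σ ≤ Real.exp (2 * B) * gibbs P.w (fun u => z (u, false)) σ := by
  set m := fun u => sm (ee f f1 f2 f3 0) (1 - P.q) s (z (u, true))
  set e := fun u => P.w u * Real.exp (z (u, false))
  have he : ∀ u, 0 < e u := fun u => mul_pos (hP.w0 u) (Real.exp_pos _)
  have hd : 0 < ∑ u, e u := Finset.sum_pos (fun u _ => he u) Finset.univ_nonempty
  have hm := fun u => sm_zero_bounds hS (1 - P.q) s (z (u, true))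
  have hr : rat (P.V f f1 f2 f3) 0 s z σ = m σ * e σ / ∑ u, m u * e u := by
    rw [rat_factor hS hP]
    congr 1
    · simp only [m, e]; ring
    · exact Finset.sum_congr rfl fun u _ => by simp only [m, e]; ring
  have lo : Real.exp (-B) * ∑ u, e u ≤ ∑ u, m u * e u := by
    rw [Finset.mul_sum]; exact Finset.sum_le_sum fun u _ => mul_le_mul_of_nonneg_right (hm u).1 (he u).le
  have up : ∑ u, m u * e u ≤ Real.exp B * ∑ u, e u := by
    rw [Finset.mul_sum]; exact Finset.sum_le_sum fun u _ => mul_le_mul_of_nonneg_right (hm u).2 (he u).le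
  have hd2 : 0 < ∑ u, m u * e u := lt_of_lt_of_le (mul_pos (Real.exp_pos _) hd) lo
  have hg : gibbs P.w (fun u => z (u, false)) σ = e σ / ∑ u, e u := rfl
  rw [hr, hg]
  constructor
  · rw [le_div_iff₀ hd2]
    calc Real.exp (-(2 * B)) * (e σ / ∑ u, e u) * ∑ u, m u * e u
        ≤ Real.exp (-(2 * B)) * (e σ / ∑ u, e u) * (Real.exp B * ∑ u, e u) :=
          mul_le_mul_of_nonneg_left up (mul_nonneg (Real.exp_pos _).le (div_pos (he σ) hd).le)
      _ = Real.exp (-B) * e σ := by
          rw [show Real.exp (-B) = Real.exp (-(2 * B)) * Real.exp B by rw [← Real.exp_add]; ring_nf]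
          field_simp
      _ ≤ _ := mul_le_mul_of_nonneg_right (hm σ).1 (he σ).le
  · rw [div_le_iff₀ hd2]
    calc m σ * e σ ≤ Real.exp B * e σ := mul_le_mul_of_nonneg_right (hm σ).2 (he σ).le
      _ = Real.exp (2 * B) * (e σ / ∑ u, e u) * (Real.exp (-B) * ∑ u, e u) := by
          rw [show Real.exp B = Real.exp (2 * B) * Real.exp (-B) by rw [← Real.exp_add]; ring_nf]
          field_simp
      _ ≤ _ := mul_le_mul_of_nonneg_left lo (mul_nonneg (Real.exp_pos _).le (div_pos (he σ) hd).le)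

lemma obs_zero_compare {n : ℕ} {Φ : (Fin n → S) → ℝ} (hΦ : ∀ σ, 0 ≤ Φ σ) (s : ℝ) (z : S × Bool → ℝ) :
    Real.exp (-(2 * B)) ^ n * base P.w Φ (fun u => z (u, false)) ≤ obs (P.V f f1 f2 f3) Φ (fun _ => 0) s z ∧
      obs (P.V f f1 f2 f3) Φ (fun _ => 0) s z ≤ Real.exp (2 * B) ^ n * base P.w Φ (fun u => z (u, false)) := by
  have h := fun σ => rat_zero_compare hS hP s z σ
  constructor
  · rw [base, obs, Finset.mul_sum]
    refine Finset.sum_le_sum fun σ _ => ?_
    have e : Real.exp (-(2 * B)) ^ n = ∏ _l : Fin n, Real.exp (-(2 * B)) := by simp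
    rw [mul_left_comm, e, ← Finset.prod_mul_distrib]
    exact mul_le_mul_of_nonneg_left (Finset.prod_le_prod
      (fun l _ => mul_nonneg (Real.exp_pos _).le (gibbs_pos hP.w0 _ _).le) fun l _ => (h (σ l)).1) (hΦ σ)
  · rw [base, obs, Finset.mul_sum]
    refine Finset.sum_le_sum fun σ _ => ?_
    have e : Real.exp (2 * B) ^ n = ∏ _l : Fin n, Real.exp (2 * B) := by simp
    rw [mul_left_comm (Real.exp (2 * B) ^ n), e, ← Finset.prod_mul_distrib]
    exact mul_le_mul_of_nonneg_left (Finset.prod_le_prod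
      (fun l _ => (rat_zero_pos (fam_par hS hP) s z _).le) fun l _ => (h (σ l)).2) (hΦ σ)

end

end Vale.Agent.P157.RS
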