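import Vale.Agent.P157.RS.Exchange

/-! Exchanging all patterns, one after the other. -/

open MeasureTheory ProbabilityTheory Set Filter
open scoped Topology
open Vale.Agent.P150 (gauss dot l1 abs_dot_le l1_nonneg integrable_of_bound)
open Vale.Agent.P157.Lim

namespace Vale.Agent.P157.RS

set_option linter.unusedSectionVars false

variable {S ι : Type} [Fintype S] [Fintype ι] [DecidableEq S] [Nonempty S]
variable {f f1 f2 f3 : ℝ → ℝ} {B D L : ℝ} {x : S → ι → ℝ} {q : ℝ} {W : S → ℝ}

/-- the cavity field -/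
noncomputable def shift (x : S → ι → ℝ) (v : ℝ) (h : ι → ℝ) : S → ℝ := fun u => √v * dot (x u) h

lemma continuous_shift (x : S → ι → ℝ) (v : ℝ) : Continuous (shift x v) := by unfold shift dot; fun_prop

lemma integrable_ffield {Φ : (S → ℝ) → ℝ} (hΦ : Good Φ) (x : S → ι → ℝ) (v : ℝ) (E : S → ℝ) :
    Integrable (fun h => Φ (E + shift x v h)) (gauss ι) := by
  set C := √v * ∑ u, ∑ i, |x u i|
  have hC : 0 ≤ C := mul_nonneg (Real.sqrt_nonneg _)
    (Finset.sum_nonneg fun _ _ => Finset.sum_nonneg fun _ _ => abs_nonneg _)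
  refine integrable_of_bound (C := |Φ E| + C) (M := 1)
    (hΦ.continuous.comp (continuous_const.add (continuous_shift x v))) fun h => ?_
  have hv : ∀ u, |shift x v h u| ≤ C * l1 h := fun u => by
    rw [shift, abs_mul, abs_of_nonneg (Real.sqrt_nonneg v), mul_assoc]
    refine mul_le_mul_of_nonneg_left (abs_dot_le (fun i => ?_) h) (Real.sqrt_nonneg _)
    exact (Finset.single_le_sum (f := fun i => |x u i|) (fun _ _ => abs_nonneg _) (Finset.mem_univ i)).trans
      (Finset.single_le_sum (f := fun u => ∑ i, |x u i|) (fun _ _ => Finset.sum_nonneg fun _ _ => abs_nonneg _)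
        (Finset.mem_univ u))
  have := abs_le.1 (hΦ.bound E (shift x v h) (mul_nonneg hC (l1_nonneg h)) hv)
  have he := Real.add_one_le_exp (1 * l1 h)
  have h1 : |Φ E| ≤ |Φ E| * Real.exp (1 * l1 h) :=
    le_mul_of_one_le_right (abs_nonneg _) (by linarith [l1_nonneg h])
  have h2 : C * l1 h ≤ C * Real.exp (1 * l1 h) := mul_le_mul_of_nonneg_left (by linarith) hC
  rw [add_mul, abs_le]
  constructor <;> linarith [le_abs_self (Φ E), neg_abs_le (Φ E)]

lemma good_ffield {Φ : (S → ℝ) → ℝ} (hΦ : Good Φ) (x : S → ι → ℝ) (v : ℝ) : Good (ffield x v Φ) := by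
  intro E E'
  show (∫ h, Φ (E + shift x v h) ∂gauss ι) - ∫ h, Φ (E' + shift x v h) ∂gauss ι ≤ _
  rw [← integral_sub (integrable_ffield hΦ x v E) (integrable_ffield hΦ x v E')]
  refine (integral_mono ((integrable_ffield hΦ x v E).sub (integrable_ffield hΦ x v E'))
    (integrable_const ‖E - E'‖) fun h => ?_).trans (by simp)
  simpa using hΦ (E + shift x v h) (E' + shift x v h)

lemma bd_smooth {α : Type} [Fintype α] {Φ : (S → ℝ) → ℝ} (hΦ : Bd Φ) {T : (α → ℝ) → S → ℝ}
    (hT : Continuous T) : Bd (fun E => ∫ h, Φ (E + T h) ∂gauss α) := by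
  obtain ⟨hc, C, hC⟩ := hΦ
  refine ⟨continuous_of_dominated (bound := fun _ => C)
    (fun E => (hc.comp (continuous_const.add hT)).aestronglyMeasurable)
    (fun E => Eventually.of_forall fun h => hC _) (integrable_const _)
    (Eventually.of_forall fun h => hc.comp (continuous_id.add continuous_const)), C, fun E => ?_⟩
  simpa using norm_integral_le_of_norm_le_const (μ := gauss α) (f := fun h => Φ (E + T h)) (C := C)
    (Eventually.of_forall fun h => hC _)

lemma bd_ffield {Φ : (S → ℝ) → ℝ} (hΦ : Bd Φ) (x : S → ι → ℝ) (v : ℝ) : Bd (ffield x v Φ) :=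
  bd_smooth hΦ (continuous_shift x v)

lemma bd_psi (hW : ∀ σ, 0 < W σ) (x : S → ι → ℝ) (q l : ℝ) : Bd (psi x q W l) := Bd_base hW _

lemma ffield_psi_nonneg (hW : ∀ σ, 0 < W σ) (x : S → ι → ℝ) (q l v : ℝ) (E : S → ℝ) :
    0 ≤ ffield x v (psi x q W l) E :=
  integral_nonneg fun _ => Finset.sum_nonneg fun _ _ =>
    mul_nonneg (Real.exp_pos _).le (Finset.prod_nonneg fun _ _ => (gibbs_pos hW _ _).le)

section iterate
variable (hf : Continuous f) (hb : ∀ x, |f x| ≤ B)
include hf hb

lemma bd_avg {Φ : (S → ℝ) → ℝ} (hΦ : Bd Φ) (x : S → ι → ℝ) : Bd (avg f x Φ) :=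
  bd_smooth hΦ (continuous_inc hf hb x)

lemma bd_iterate {Φ : (S → ℝ) → ℝ} (hΦ : Bd Φ) (x : S → ι → ℝ) (n : ℕ) : Bd ((avg f x)^[n] Φ) := by
  induction n with
  | zero => exact hΦ
  | succ n ih => rw [Function.iterate_succ_apply']; exact bd_avg hf hb ih x

lemma integrable_avg_bd {Φ : (S → ℝ) → ℝ} (hΦ : Bd Φ) (x : S → ι → ℝ) (E : S → ℝ) :
    Integrable (fun g => Φ (E + Lim.inc f x g)) (gauss ι) := by
  obtain ⟨hc, C, hC⟩ := hΦ
  exact Integrable.of_bound (hc.comp (continuous_const.add (continuous_inc hf hb x))).aestronglyMeasurable C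
    (Eventually.of_forall fun g => hC _)

lemma iterate_le {Φ Φ' Ψ : (S → ℝ) → ℝ} (hΦ : Good Φ) (hΦ' : Good Φ') (hΨ : Bd Ψ) {a c : ℝ}
    (h : ∀ E, Φ E ≤ Φ' E + a + c * Ψ E) (x : S → ι → ℝ) (n : ℕ) (E : S → ℝ) :
    (avg f x)^[n] Φ E ≤ (avg f x)^[n] Φ' E + a + c * (avg f x)^[n] Ψ E := by
  induction n generalizing E with
  | zero => exact h E
  | succ n ih =>
    rw [Function.iterate_succ_apply', Function.iterate_succ_apply', Function.iterate_succ_apply']
    have i1 := integrable_avg hf hb (good_iterate hf hb hΦ x n) x E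
    have i2 := integrable_avg hf hb (good_iterate hf hb hΦ' x n) x E
    have i3 := integrable_avg_bd hf hb (bd_iterate hf hb hΨ x n) x E
    refine (integral_mono i1 ((i2.add (integrable_const a)).add (i3.const_mul c)) fun g => ih _).trans
      (le_of_eq ?_)
    simp only [Pi.add_apply]
    rw [integral_add, integral_add i2 (integrable_const a), integral_const, probReal_univ, one_smul,
      integral_const_mul]
    · rfl
    · exact i2.add (integrable_const a)
    · exact i3.const_mul c

lemma iterate_mono_bd {Φ Ψ : (S → ℝ) → ℝ} (hΦ : Bd Φ) (hΨ : Bd Ψ) (h : ∀ E, Φ E ≤ Ψ E)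
    (x : S → ι → ℝ) (n : ℕ) (E : S → ℝ) : (avg f x)^[n] Φ E ≤ (avg f x)^[n] Ψ E := by
  induction n generalizing E with
  | zero => exact h E
  | succ n ih =>
    rw [Function.iterate_succ_apply', Function.iterate_succ_apply']
    exact integral_mono (integrable_avg_bd hf hb (bd_iterate hf hb hΦ x n) x E)
      (integrable_avg_bd hf hb (bd_iterate hf hb hΨ x n) x E) fun g => ih _

end iterate

variable (hS : Smooth f f1 f2 f3 B D L) (hx : ∀ σ, dot (x σ) (x σ) = 1) (hq0 : 0 ≤ q) (hq1 : q ≤ 1)
  (hW : ∀ σ, 0 < W σ)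
include hS hx hq0 hq1 hW

/-- the gap moment only decreases when patterns replace cavity field -/
lemma gap_chain {low : ℝ} (hlow : 0 < low) : ∀ (j m : ℕ) {l : ℝ}, (j:ℝ) * rate D B + low ≤ l → ∀ E,
    (avg f x)^[j] (ffield x (m * Gam f f1 f2 f3 q) (psi x q W (l - j * rate D B))) E ≤
      ffield x ((m + j : ℕ) * Gam f f1 f2 f3 q) (psi x q W l) E
  | 0, m, l, _, E => by simp
  | j + 1, m, l, hl, E => by
    push_cast at hl
    rw [Function.iterate_succ_apply, show m + (j + 1) = m + 1 + j by ring]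
    have hb := hS.b0
    refine le_trans (iterate_mono_bd (cont0 hS) hb (bd_avg (cont0 hS) hb (bd_ffield (bd_psi hW x q _) x _) x)
      (bd_ffield (bd_psi hW x q (l - j * rate D B)) x ((m + 1 : ℕ) * Gam f f1 f2 f3 q)) (fun E' => ?_) x j E)
      (gap_chain hlow j (m + 1) (le_trans ?_ hl) E)
    · have := (one_pattern hS hx hq0 hq1 hW m (lam := l - j * rate D B) (by linarith) E').2
      push_cast
      rw [show l - ((j:ℝ) + 1) * rate D B = l - j * rate D B - rate D B by ring]
      exact this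
    · have : 0 ≤ rate D B := by unfold rate; positivity
      linarith

/-- all patterns against cavity field -/
theorem chain {low : ℝ} (hlow : 0 < low) : ∀ (j m : ℕ) {l : ℝ}, (j:ℝ) * rate D B + low ≤ l → ∀ E,
    |(avg f x)^[j] (ffield x (m * Gam f f1 f2 f3 q) (lse W)) E
        - ffield x ((m + j : ℕ) * Gam f f1 f2 f3 q) (lse W) E - j * incr f f1 f2 f3 q| ≤
      j * (rate D B / (16 * low) * ffield x ((m + j : ℕ) * Gam f f1 f2 f3 q) (psi x q W l) E)
  | 0, m, l, _, E => by simp
  | j + 1, m, l, hl, E => by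
    push_cast at hl
    set K := rate D B
    set Γ := Gam f f1 f2 f3 q
    set I := incr f f1 f2 f3 q
    set c := K / (16 * low)
    have hK : 0 ≤ K := by unfold K rate; positivity
    have hc : 0 ≤ c := by positivity
    have hf := cont0 hS
    have hb := hS.b0
    have gA : Good (avg f x (ffield x (m * Γ) (lse W))) := good_avg hf hb (good_ffield (good_lse hW) x _) x
    have gB : Good (ffield x ((m + 1 : ℕ) * Γ) (lse W)) := good_ffield (good_lse hW) x _
    have gP : Bd (ffield x ((m + 1 : ℕ) * Γ) (psi x q W (l - j * K))) := bd_ffield (bd_psi hW x q _) x _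
    have step : ∀ E', |avg f x (ffield x (m * Γ) (lse W)) E' - ffield x ((m + 1 : ℕ) * Γ) (lse W) E' - I| ≤
        c * ffield x ((m + 1 : ℕ) * Γ) (psi x q W (l - j * K)) E' := fun E' => by
      have h := (one_pattern hS hx hq0 hq1 hW m (lam := l - j * K) (by linarith) E').1
      push_cast
      refine h.trans (mul_le_mul_of_nonneg_right ?_ (ffield_psi_nonneg hW x q _ _ E'))
      exact div_le_div_of_nonneg_left hK (by positivity) (by linarith)
    have u := iterate_le hf hb gA gB gP (a := I) (c := c) (fun E' => by linarith [(abs_le.1 (step E')).2]) x j E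
    have d := iterate_le hf hb gB gA gP (a := -I) (c := c) (fun E' => by linarith [(abs_le.1 (step E')).1]) x j E
    have g := mul_le_mul_of_nonneg_left
      (gap_chain hS hx hq0 hq1 hW hlow j (m + 1) (l := l) (by linarith) E) hc
    have r := abs_le.1 (chain hlow j (m + 1) (l := l) (by linarith) E)
    rw [Function.iterate_succ_apply, show m + (j + 1) = m + 1 + j by ring]
    push_cast at g r u d ⊢
    exact abs_le.2 ⟨by linarith, by linarith⟩

end Vale.Agent.P157.RS
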