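import Vale.Agent.P157.RS.Endpoint

/-! The replica-symmetric fixed point and the limit of the pressure. -/

open MeasureTheory ProbabilityTheory Set Filter
open scoped Topology
open Vale.Agent.P150 (gauss dot)
open Vale.Agent.P157.Lim

namespace Vale.Agent.P157.RS

set_option linter.unusedSectionVars false

variable {f f1 f2 f3 : ℝ → ℝ} {B D L : ℝ}

/-- mean of `|z|` -/
noncomputable def mabs : ℝ := ∫ z, |z| ∂gaussianReal 0 1

lemma abs_qfun_sub (a b : ℝ) : |qfun a - qfun b| ≤ 2 * mabs * |√a - √b| := by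
  rw [qfun, qfun, ← integral_sub (integrable_tanh_sq _) (integrable_tanh_sq _)]
  refine (abs_integral_le_integral_abs).trans ((integral_mono ((integrable_tanh_sq _).sub (integrable_tanh_sq _)).abs
    (((memLp_id_gaussianReal 1).integrable le_rfl).abs.const_mul (2 * |√a - √b|)) fun z => ?_).trans
    (le_of_eq ?_))
  · refine (abs_tanh_sq_sub _ _).trans (le_of_eq ?_)
    rw [← sub_mul, abs_mul, mul_assoc]; rfl
  · rw [integral_const_mul, mabs]; simp only [id]; ring

lemma abs_siteFree_sub (a b : ℝ) : |siteFree a - siteFree b| ≤ mabs * |√a - √b| := by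
  rw [siteFree, siteFree, ← integral_sub (integrable_logcosh _) (integrable_logcosh _)]
  refine (abs_integral_le_integral_abs).trans ((integral_mono ((integrable_logcosh _).sub (integrable_logcosh _)).abs
    (((memLp_id_gaussianReal 1).integrable le_rfl).abs.const_mul |√a - √b|) fun z => ?_).trans (le_of_eq ?_))
  · refine (abs_logcosh_sub _ _).trans (le_of_eq ?_)
    rw [← sub_mul, abs_mul]; rfl
  · rw [integral_const_mul, mabs]; simp only [id]; ring

lemma continuous_Gam (hS : Smooth f f1 f2 f3 B D L) : Continuous (Gam f f1 f2 f3) := by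
  have e : ∀ k q v, sm (ee f f1 f2 f3 k) (1 - q) 0 v = sm (ee f f1 f2 f3 k) 1 q v := fun k q v => by simp [sm]
  unfold Gam
  simp only [e]
  refine continuous_of_dominated (bound := fun _ => D ^ 2) (fun q => ?_) (fun q => Eventually.of_forall fun y => ?_)
    (integrable_const _) (Eventually.of_forall fun y => ?_)
  · exact ((((continuous_sm hS 1 1).comp (by fun_prop : Continuous fun y : ℝ => (q, √q * y))).div
      ((continuous_sm hS 0 1).comp (by fun_prop : Continuous fun y : ℝ => (q, √q * y)))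
      fun y => (sm_zero_pos hS _ _ _).ne').pow 2).aestronglyMeasurable
  · rw [Real.norm_eq_abs, abs_of_nonneg (sq_nonneg _), ← sq_abs]
    exact pow_le_pow_left₀ (abs_nonneg _) (abs_ratio_sm hS _ _ _) 2
  · exact (((continuous_sm hS 1 1).comp (by fun_prop : Continuous fun q : ℝ => (q, √q * y))).div
      ((continuous_sm hS 0 1).comp (by fun_prop : Continuous fun q : ℝ => (q, √q * y)))
      fun q => (sm_zero_pos hS _ _ _).ne').pow 2

/-- the fixed point exists -/
theorem exists_fixed (hS : Smooth f f1 f2 f3 B D L) (α : ℝ) :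
    ∃ q, q = qfun (α * Gam f f1 f2 f3 q) := by
  have hq : Continuous qfun := by
    refine continuous_of_dominated (bound := fun _ => (1:ℝ))
      (fun r => ((continuous_tanh'.comp (by fun_prop)).pow 2).aestronglyMeasurable)
      (fun r => Eventually.of_forall fun z => ?_) (integrable_const _)
      (Eventually.of_forall fun z => (continuous_tanh'.comp (by fun_prop)).pow 2)
    rw [Real.norm_eq_abs, abs_of_nonneg (sq_nonneg _)]
    exact (Real.tanh_sq_lt_one _).le
  have hc : Continuous fun q => q - qfun (α * Gam f f1 f2 f3 q) :=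
    continuous_id.sub (hq.comp (continuous_const.mul (continuous_Gam hS)))
  obtain ⟨q, -, hq0⟩ := intermediate_value_Icc (zero_le_one : (0:ℝ) ≤ 1) hc.continuousOn
    (show (0:ℝ) ∈ Icc _ _ from ⟨by simpa using (qfun_mem _).1, by simpa using (qfun_mem _).2⟩)
  exact ⟨q, sub_eq_zero.1 hq0⟩

/-- distance to the replica-symmetric value, before taking the limit -/
lemma free_approx (hS : Smooth f f1 f2 f3 B D L) {α : ℝ} (hα : 0 < α) (hK : α * rate D B ≤ 1 / 32) {q : ℝ}
    (hq : q = qfun (α * Gam f f1 f2 f3 q)) {N : ℕ} (hN : 0 < N) :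
    |free f N ⌊α * N⌋₊ - N * siteFree (⌊α * N⌋₊ * Gam f f1 f2 f3 q / N)
        - ⌊α * N⌋₊ * incr f f1 f2 f3 q| ≤
      4 * α * rate D B * Real.exp (4 * mabs * (Gam f f1 f2 f3 q / √(α * Gam f f1 f2 f3 q))) := by
  set Γ := Gam f f1 f2 f3 q
  set K := rate D B
  set M := ⌊α * N⌋₊
  have hΓ : 0 ≤ Γ := Gam_nonneg q
  have hK0 : 0 ≤ K := by unfold K rate; positivity
  have hN0 : (0:ℝ) < N := by exact_mod_cast hN
  have hM : (M:ℝ) ≤ α * N := Nat.floor_le (by positivity)
  have hM' : α * N < M + 1 := Nat.lt_floor_add_one _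
  obtain ⟨q0, q1⟩ : q ∈ Icc (0:ℝ) 1 := hq ▸ qfun_mem _
  have hl : (M:ℝ) * K + (N:ℝ) / 32 ≤ (N:ℝ) / 16 := by
    have a := mul_le_mul_of_nonneg_right hM hK0
    have b := mul_le_mul_of_nonneg_right hK hN0.le
    linarith
  have h := chain (x := xv N) (W := wt N) hS (dot_xv hN) q0 q1 (fun _ => by unfold wt; positivity)
    (low := (N:ℝ) / 32) (by positivity) M 0 (l := (N:ℝ) / 16) hl 0
  have e0 : ffield (xv N) ((0 : ℕ) * Γ) (lse (wt N)) = lse (wt N) := by
    funext E
    simp [ffield, ← Pi.zero_def]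
  rw [e0, zero_add, show (M:ℝ) * Γ = (N:ℝ) * ((M:ℝ) * Γ / N) by field_simp, lse_end hN] at h
  refine h.trans ?_
  set rN := (M:ℝ) * Γ / N
  have p := psi_end hN (q := q) (abs_le.2 ⟨by linarith, q1⟩) rN
  have hdist : (N:ℝ) * |√rN - √(α * Γ)| ≤ Γ / √(α * Γ) := by
    rcases hΓ.eq_or_lt with h0 | h0
    · simp [rN, ← h0]
    have hs : 0 < √(α * Γ) := Real.sqrt_pos.2 (mul_pos hα h0)
    have ha := Real.mul_self_sqrt (show 0 ≤ rN by positivity)
    have hb := Real.mul_self_sqrt (show 0 ≤ α * Γ by positivity)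
    rw [le_div_iff₀ hs]
    calc (N:ℝ) * |√rN - √(α * Γ)| * √(α * Γ) ≤ N * |√rN - √(α * Γ)| * (√rN + √(α * Γ)) :=
          mul_le_mul_of_nonneg_left (le_add_of_nonneg_left (Real.sqrt_nonneg _)) (by positivity)
      _ = N * |rN - α * Γ| := by
          rw [mul_assoc, ← abs_of_nonneg (add_nonneg (Real.sqrt_nonneg rN) (Real.sqrt_nonneg (α * Γ))),
            ← abs_mul]
          congr 2
          linear_combination ha - hb
      _ = Γ * |(M:ℝ) - α * N| := by
          rw [← abs_of_pos hN0, ← abs_mul, ← abs_of_nonneg hΓ, ← abs_mul, abs_of_pos hN0, abs_of_nonneg hΓ]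
          congr 1
          simp only [rN]; field_simp
      _ ≤ Γ * 1 := mul_le_mul_of_nonneg_left (abs_le.2 ⟨by linarith, by linarith⟩) hΓ
      _ = Γ := mul_one Γ
  have hμ : 2 * (N:ℝ) * |qfun rN - q| ≤ 4 * mabs * (Γ / √(α * Γ)) := by
    have a := abs_qfun_sub rN (α * Γ)
    rw [← hq] at a
    have b := mul_le_mul_of_nonneg_left a hN0.le
    have c := mul_le_mul_of_nonneg_left hdist (show 0 ≤ 4 * mabs by
      have : 0 ≤ mabs := integral_nonneg fun _ => abs_nonneg _
      positivity)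
    linarith
  have p' := p.trans (mul_le_mul_of_nonneg_left (Real.exp_le_exp.2 hμ) zero_le_two)
  calc (M:ℝ) * (K / (16 * ((N:ℝ) / 32)) * ffield (xv N) (N * rN) (psi (xv N) q (wt N) ((N:ℝ) / 16)) 0)
      ≤ (M:ℝ) * (K / (16 * ((N:ℝ) / 32)) * (2 * Real.exp (4 * mabs * (Γ / √(α * Γ))))) := by gcongr
    _ = (M:ℝ) / N * (4 * K * Real.exp (4 * mabs * (Γ / √(α * Γ)))) := by field_simp; ring
    _ ≤ α * (4 * K * Real.exp (4 * mabs * (Γ / √(α * Γ)))) :=
        mul_le_mul_of_nonneg_right ((div_le_iff₀ hN0).2 hM) (by positivity)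
    _ = _ := by ring

/-- the replica-symmetric formula -/
theorem rs_limit (hS : Smooth f f1 f2 f3 B D L) {α : ℝ} (hα : 0 < α) (hK : α * rate D B ≤ 1 / 32) {q : ℝ}
    (hq : q = qfun (α * Gam f f1 f2 f3 q)) :
    Tendsto (fun N : ℕ => pressure (isingUniform N) f ⌊α * N⌋₊) atTop
      (𝓝 (α * incr f f1 f2 f3 q + siteFree (α * Gam f f1 f2 f3 q))) := by
  set Γ := Gam f f1 f2 f3 q
  have hfl : Tendsto (fun N : ℕ => (⌊α * N⌋₊:ℝ) / N) atTop (𝓝 α) :=
    (tendsto_nat_floor_mul_div_atTop hα.le).comp tendsto_natCast_atTop_atTop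
  have hsite : Continuous siteFree := by
    refine continuous_iff_continuousAt.2 fun a => tendsto_iff_dist_tendsto_zero.2 ?_
    refine squeeze_zero (fun _ => dist_nonneg) (fun b => abs_siteFree_sub b a) ?_
    have h : Continuous fun b => mabs * |√b - √a| := by fun_prop
    simpa using h.tendsto a
  have hmain : Tendsto (fun N : ℕ => siteFree ((⌊α * N⌋₊:ℝ) / N * Γ) + (⌊α * N⌋₊:ℝ) / N * incr f f1 f2 f3 q)
      atTop (𝓝 (α * incr f f1 f2 f3 q + siteFree (α * Γ))) := by
    rw [add_comm (α * incr f f1 f2 f3 q)]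
    exact ((hsite.tendsto _).comp (hfl.mul_const Γ)).add (hfl.mul_const _)
  have herr : Tendsto (fun N : ℕ => free f N ⌊α * N⌋₊ / N -
      (siteFree ((⌊α * N⌋₊:ℝ) / N * Γ) + (⌊α * N⌋₊:ℝ) / N * incr f f1 f2 f3 q)) atTop (𝓝 0) := by
    refine squeeze_zero_norm' ?_ (tendsto_const_div_atTop_nhds_zero_nat
      (4 * α * rate D B * Real.exp (4 * mabs * (Γ / √(α * Γ)))))
    filter_upwards [eventually_gt_atTop 0] with N hN
    have hN0 : (0:ℝ) < N := by exact_mod_cast hN
    refine le_of_eq_of_le ?_ (div_le_div_of_nonneg_right (free_approx hS hα hK hq hN) hN0.le)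
    rw [Real.norm_eq_abs]
    conv_rhs => rw [← abs_of_pos hN0, ← abs_div, abs_of_pos hN0]
    congr 1
    rw [div_mul_eq_mul_div]
    field_simp
    ring
  refine ((zero_add (_ : ℝ)) ▸ herr.add hmain).congr fun N => ?_
  rw [pressure_eq_free (cont0 hS) hS.b0]
  ring

end Vale.Agent.P157.RS
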