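import Vale.Agent.P150.GaussCalc

/-! Gaussian smoothing of `e^f` and of its derivatives. -/

open MeasureTheory ProbabilityTheory Set Filter
open scoped Topology

namespace Vale.Agent.P157.RS

/-- potential: `f` three times differentiable, `|f| ≤ B`, `|f'|, |f''| ≤ D`, `|f'''| ≤ L` -/
structure Smooth (f f1 f2 f3 : ℝ → ℝ) (B D L : ℝ) : Prop where
  d0 : ∀ x, HasDerivAt f (f1 x) x
  d1 : ∀ x, HasDerivAt f1 (f2 x) x
  d2 : ∀ x, HasDerivAt f2 (f3 x) x
  cont3 : Continuous f3
  b0 : ∀ x, |f x| ≤ B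
  b1 : ∀ x, |f1 x| ≤ D
  b2 : ∀ x, |f2 x| ≤ D
  b3 : ∀ x, |f3 x| ≤ L

/-- the derivatives of `e^f` -/
noncomputable def ee (f f1 f2 f3 : ℝ → ℝ) : ℕ → ℝ → ℝ
  | 0, x => Real.exp (f x)
  | 1, x => Real.exp (f x) * f1 x
  | 2, x => Real.exp (f x) * (f1 x * f1 x + f2 x)
  | 3, x => Real.exp (f x) * (f1 x * (f1 x * f1 x + f2 x) + (2 * (f1 x * f2 x) + f3 x))
  | _, _ => 0

/-- ratio bounds -/
def cc (D L : ℝ) : ℕ → ℝ
  | 0 => 1
  | 1 => D
  | 2 => D * D + D
  | 3 => D * (D * D + D) + (2 * (D * D) + L)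
  | _ => 0

/-- smoothed potential -/
noncomputable def sm (e : ℝ → ℝ) (c : ℝ) (s v : ℝ) : ℝ :=
  ∫ y, e (v + √((1 - s) * c) * y) ∂gaussianReal 0 1

variable {f f1 f2 f3 : ℝ → ℝ} {B D L : ℝ}

section
variable (hS : Smooth f f1 f2 f3 B D L)
include hS

lemma cont0 : Continuous f := continuous_iff_continuousAt.2 fun x => (hS.d0 x).continuousAt
lemma cont1 : Continuous f1 := continuous_iff_continuousAt.2 fun x => (hS.d1 x).continuousAt
lemma cont2 : Continuous f2 := continuous_iff_continuousAt.2 fun x => (hS.d2 x).continuousAt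

lemma D_nonneg : 0 ≤ D := (abs_nonneg _).trans (hS.b1 0)
lemma L_nonneg : 0 ≤ L := (abs_nonneg _).trans (hS.b3 0)
lemma B_nonneg : 0 ≤ B := (abs_nonneg _).trans (hS.b0 0)

lemma cc_nonneg (k : ℕ) : 0 ≤ cc D L k := by
  have hD := D_nonneg hS
  have hL := L_nonneg hS
  rcases k with _ | _ | _ | _ | k <;> simp only [cc] <;> positivity

lemma continuous_ee (k : ℕ) : Continuous (ee f f1 f2 f3 k) := by
  have := cont0 hS; have := cont1 hS; have := cont2 hS; have := hS.cont3
  rcases k with _ | _ | _ | _ | k <;> unfold ee <;> fun_prop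

lemma abs_ee_le (k : ℕ) (x : ℝ) : |ee f f1 f2 f3 k x| ≤ cc D L k * Real.exp (f x) := by
  have hD := D_nonneg hS
  have e := Real.exp_pos (f x)
  have a1 := hS.b1 x
  have a2 := hS.b2 x
  have a3 := hS.b3 x
  have h2 : |f1 x * f1 x + f2 x| ≤ D * D + D :=
    (abs_add_le _ _).trans (add_le_add (by rw [abs_mul]; exact mul_le_mul a1 a1 (abs_nonneg _) hD) a2)
  rcases k with _ | _ | _ | _ | k <;> simp only [ee, cc]
  · rw [abs_of_pos e, one_mul]
  · rw [abs_mul, abs_of_pos e, mul_comm]; exact mul_le_mul_of_nonneg_right a1 e.le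
  · rw [abs_mul, abs_of_pos e, mul_comm]; exact mul_le_mul_of_nonneg_right h2 e.le
  · rw [abs_mul, abs_of_pos e, mul_comm]
    refine mul_le_mul_of_nonneg_right ((abs_add_le _ _).trans (add_le_add ?_ ((abs_add_le _ _).trans
      (add_le_add ?_ a3)))) e.le
    · rw [abs_mul]; exact mul_le_mul a1 h2 (abs_nonneg _) hD
    · rw [abs_mul, abs_two, abs_mul]
      exact mul_le_mul_of_nonneg_left (mul_le_mul a1 a2 (abs_nonneg _) hD) zero_le_two
  · simp

lemma abs_ee_const (k : ℕ) (x : ℝ) : |ee f f1 f2 f3 k x| ≤ cc D L k * Real.exp B :=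
  (abs_ee_le hS k x).trans
    (mul_le_mul_of_nonneg_left (Real.exp_le_exp.2 (abs_le.1 (hS.b0 x)).2) (cc_nonneg hS k))

lemma hasDeriv_ee {k : ℕ} (hk : k ≤ 2) (x : ℝ) :
    HasDerivAt (ee f f1 f2 f3 k) (ee f f1 f2 f3 (k + 1) x) x := by
  have he := (hS.d0 x).exp
  have h2 := ((hS.d1 x).mul (hS.d1 x)).add (hS.d2 x)
  rcases k with _ | _ | _ | k <;> simp only [ee]
  · exact he
  · exact (he.mul (hS.d1 x)).congr_deriv (by ring)
  · exact (he.mul h2).congr_deriv (by simp; ring)
  · omega

lemma integrable_sm (k : ℕ) (a b : ℝ) :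
    Integrable (fun y => ee f f1 f2 f3 k (a + b * y)) (gaussianReal 0 1) :=
  Integrable.of_bound ((continuous_ee hS k).comp (by fun_prop)).aestronglyMeasurable (cc D L k * Real.exp B)
    (Eventually.of_forall fun y => by rw [Real.norm_eq_abs]; exact abs_ee_const hS k _)

lemma continuous_sm (k : ℕ) (c : ℝ) :
    Continuous fun p : ℝ × ℝ => sm (ee f f1 f2 f3 k) c p.1 p.2 :=
  continuous_of_dominated (bound := fun _ => cc D L k * Real.exp B)
    (fun p => ((continuous_ee hS k).comp (by fun_prop)).aestronglyMeasurable)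
    (fun p => Eventually.of_forall fun y => by rw [Real.norm_eq_abs]; exact abs_ee_const hS k _)
    (integrable_const _) (Eventually.of_forall fun y => (continuous_ee hS k).comp (by fun_prop))

lemma sm_zero_bounds (c s v : ℝ) :
    Real.exp (-B) ≤ sm (ee f f1 f2 f3 0) c s v ∧ sm (ee f f1 f2 f3 0) c s v ≤ Real.exp B := by
  have i := integrable_sm hS 0 v (√((1 - s) * c))
  constructor
  · simpa [sm] using integral_mono (integrable_const (Real.exp (-B))) i
      fun y => Real.exp_le_exp.2 (abs_le.1 (hS.b0 _)).1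
  · simpa [sm] using integral_mono i (integrable_const (Real.exp B))
      fun y => Real.exp_le_exp.2 (abs_le.1 (hS.b0 _)).2

lemma sm_zero_pos (c s v : ℝ) : 0 < sm (ee f f1 f2 f3 0) c s v :=
  lt_of_lt_of_le (Real.exp_pos _) (sm_zero_bounds hS c s v).1

lemma abs_sm_le (k : ℕ) (c s v : ℝ) :
    |sm (ee f f1 f2 f3 k) c s v| ≤ cc D L k * sm (ee f f1 f2 f3 0) c s v := by
  unfold sm
  rw [← integral_const_mul]
  refine (abs_integral_le_integral_abs).trans (integral_mono (integrable_sm hS k _ _).abs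
    ((integrable_sm hS 0 _ _).const_mul _) fun y => ?_)
  exact abs_ee_le hS k _

lemma hasDeriv_sm {k : ℕ} (hk : k ≤ 2) (c s v : ℝ) :
    HasDerivAt (fun v => sm (ee f f1 f2 f3 k) c s v) (sm (ee f f1 f2 f3 (k + 1)) c s v) v :=
  (hasDerivAt_integral_of_dominated_loc_of_deriv_le (bound := fun _ => cc D L (k + 1) * Real.exp B)
    (F := fun w y => ee f f1 f2 f3 k (w + √((1 - s) * c) * y))
    (F' := fun w y => ee f f1 f2 f3 (k + 1) (w + √((1 - s) * c) * y)) (Metric.ball_mem_nhds v one_pos)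
    (Eventually.of_forall fun w => ((continuous_ee hS k).comp (by fun_prop)).aestronglyMeasurable)
    (integrable_sm hS k _ _) ((continuous_ee hS (k + 1)).comp (by fun_prop)).aestronglyMeasurable
    (Eventually.of_forall fun y w _ => by rw [Real.norm_eq_abs]; exact abs_ee_const hS _ _)
    (integrable_const _)
    (Eventually.of_forall fun y w _ =>
      HasDerivAt.comp_add_const w (√((1 - s) * c) * y) (hasDeriv_ee hS hk (w + √((1 - s) * c) * y)))).2

/-- the heat equation -/
lemma heat_sm {k : ℕ} (hk : k ≤ 1) {c : ℝ} (hc : 0 ≤ c) {s : ℝ} (hs : s < 1) (v : ℝ) :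
    HasDerivAt (fun s => sm (ee f f1 f2 f3 k) c s v) (-(c / 2) * sm (ee f f1 f2 f3 (k + 2)) c s v) s := by
  rcases hc.eq_or_lt with rfl | hc
  · simpa [sm] using hasDerivAt_const s (sm (ee f f1 f2 f3 k) 0 0 v)
  set σ := fun t : ℝ => √((1 - t) * c) with hσ
  set r := (1 - s) / 2 with hr
  have hr0 : 0 < r := by simp only [hr]; linarith
  have hpos : ∀ t ∈ Metric.ball s r, r * c ≤ (1 - t) * c := fun t ht => by
    rw [Metric.mem_ball, Real.dist_eq, abs_lt] at ht
    exact mul_le_mul_of_nonneg_right (by linarith) hc.le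
  have hs0 : 0 < σ s := Real.sqrt_pos.2 (mul_pos (by linarith) hc)
  have key := (hasDerivAt_integral_of_dominated_loc_of_deriv_le
    (bound := fun y => cc D L (k + 1) * Real.exp B * (c / (2 * √(r * c)) * |y|))
    (F := fun t y => ee f f1 f2 f3 k (v + σ t * y))
    (F' := fun t y => ee f f1 f2 f3 (k + 1) (v + σ t * y) * (-c / (2 * σ t) * y))
    (Metric.ball_mem_nhds s hr0)
    (Eventually.of_forall fun w => ((continuous_ee hS k).comp (by fun_prop)).aestronglyMeasurable)
    (integrable_sm hS k _ _)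
    (((continuous_ee hS (k + 1)).comp (by fun_prop)).mul (by fun_prop)).aestronglyMeasurable
    (Eventually.of_forall fun y w hw => by
      rw [Real.norm_eq_abs, abs_mul]
      refine mul_le_mul (abs_ee_const hS _ _) ?_ (abs_nonneg _)
        (mul_nonneg (cc_nonneg hS _) (Real.exp_pos _).le)
      have h1 : √(r * c) ≤ σ w := Real.sqrt_le_sqrt (hpos w hw)
      have h0 : 0 < √(r * c) := by positivity
      rw [abs_mul, abs_div, abs_neg, abs_of_pos hc, abs_mul, abs_two,
        abs_of_pos (h0.trans_le h1)]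
      gcongr)
    ((((memLp_id_gaussianReal 1).integrable le_rfl).abs.const_mul _).const_mul _)
    (Eventually.of_forall fun y w hw => by
      have hw0 : 0 < (1 - w) * c := lt_of_lt_of_le (by positivity) (hpos w hw)
      have hd := (((hasDerivAt_id w).const_sub 1).mul_const c).sqrt (by simpa using hw0.ne')
      have hd2 : HasDerivAt (fun t => v + σ t * y) (-c / (2 * σ w) * y) w :=
        ((hd.mul_const y).const_add v).congr_deriv (by simp [hσ])
      exact HasDerivAt.comp w (hasDeriv_ee hS (k := k) (by omega) (v + σ w * y)) hd2)).2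
  refine key.congr_deriv ?_
  have hst := P150.stein_one (f := fun y => ee f f1 f2 f3 (k + 1) (v + σ s * y))
    (f' := fun y => ee f f1 f2 f3 (k + 2) (v + σ s * y) * σ s)
    (C := max (cc D L (k + 1) * Real.exp B) (cc D L (k + 2) * Real.exp B * σ s)) (M := 0)
    (fun y => HasDerivAt.comp y (h := fun y => v + σ s * y)
      (hasDeriv_ee hS (k := k + 1) (by omega) (v + σ s * y))
      ((((hasDerivAt_id' y).const_mul (σ s)).const_add v).congr_deriv (by simp)))
    (((continuous_ee hS (k + 2)).comp (by fun_prop)).mul continuous_const)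
    (fun y => by simpa using Or.inl (abs_ee_const hS (k + 1) _))
    (fun y => by
      simp only [zero_mul, Real.exp_zero, mul_one, le_max_iff]
      refine Or.inr ?_
      rw [abs_mul, abs_of_pos hs0]
      exact mul_le_mul_of_nonneg_right (abs_ee_const hS _ _) hs0.le)
  calc ∫ y, ee f f1 f2 f3 (k + 1) (v + σ s * y) * (-c / (2 * σ s) * y) ∂gaussianReal 0 1
      = -c / (2 * σ s) * ∫ y, y * ee f f1 f2 f3 (k + 1) (v + σ s * y) ∂gaussianReal 0 1 := by
        rw [← integral_const_mul]; exact integral_congr_ae (Eventually.of_forall fun y => by ring)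
    _ = _ := by
        rw [hst, integral_mul_const, sm]
        show -c / (2 * σ s) * ((∫ y, ee f f1 f2 f3 (k + 2) (v + σ s * y) ∂gaussianReal 0 1) * σ s) =
          -(c / 2) * ∫ y, ee f f1 f2 f3 (k + 2) (v + σ s * y) ∂gaussianReal 0 1
        field_simp

lemma sm_one (k : ℕ) (c v : ℝ) : sm (ee f f1 f2 f3 k) c 1 v = ee f f1 f2 f3 k v := by simp [sm]

end

end Vale.Agent.P157.RS
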