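import Vale.Agent.P157.RS.Cavity

/-! Exchanging one pattern for one unit of cavity field. -/

open MeasureTheory ProbabilityTheory Set Filter
open scoped Topology
open Vale.Agent.P150 (gauss dot l1)
open Vale.Agent.P157.Lim

namespace Vale.Agent.P157.RS

set_option linter.unusedSectionVars false

variable {S ι : Type} [Fintype S] [Fintype ι] [DecidableEq S] [Nonempty S]
variable {f f1 f2 f3 : ℝ → ℝ} {B D L : ℝ}

/-- averaging over a cavity field of variance `v` -/
noncomputable def ffield (x : S → ι → ℝ) (v : ℝ) (Φ : (S → ℝ) → ℝ) (E : S → ℝ) : ℝ :=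
  ∫ h, Φ (E + fun u => √v * dot (x u) h) ∂gauss ι

/-- exponential moment of the overlap gap -/
noncomputable def psi (x : S → ι → ℝ) (q : ℝ) (W : S → ℝ) (lam : ℝ) (E : S → ℝ) : ℝ :=
  base W (fun σ : Fin 2 → S => Real.exp (lam * (dot (x (σ 0)) (x (σ 1)) - q) ^ 2)) E

/-- the increment of one pattern -/
noncomputable def incr (f f1 f2 f3 : ℝ → ℝ) (q : ℝ) : ℝ :=
  (∫ y, Real.log (sm (ee f f1 f2 f3 0) (1 - q) 0 (√q * y)) ∂gaussianReal 0 1)
    - Gam f f1 f2 f3 q * (1 - q) / 2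

/-- drop of the exponential rate caused by one pattern -/
noncomputable def rate (D B : ℝ) : ℝ := 1024 * (D * D + D) ^ 2 * Real.exp (8 * B)

variable (P : Par S ι) (hS : Smooth f f1 f2 f3 B D L) (hP : P.Ok)

/-- the frozen version of the family at time `s` -/
noncomputable def frozen (s : ℝ) : Par S ι :=
  { P with A := s * P.A + (1 - s) * P.Bv, Bv := s * P.A + (1 - s) * P.Bv }

include hP in
lemma frozen_ok {s : ℝ} (hs : s ∈ Icc (0:ℝ) 1) : (frozen P s).Ok where
  unit := hP.unit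
  q0 := hP.q0
  q1 := hP.q1
  A0 := add_nonneg (mul_nonneg hs.1 hP.A0) (mul_nonneg (by linarith [hs.2]) hP.B0)
  B0 := add_nonneg (mul_nonneg hs.1 hP.A0) (mul_nonneg (by linarith [hs.2]) hP.B0)
  w0 := hP.w0

include hS hP in
lemma frozen_expect {s : ℝ} (hs : s ∈ Icc (0:ℝ) 1) {n : ℕ} (Φ : (Fin n → S) → ℝ) (k : Fin n → ℕ) :
    ∫ g, obs (P.V f f1 f2 f3) Φ k s (field P.a P.b s g) ∂gauss ((ι ⊕ ι) ⊕ (Unit ⊕ ι)) =
      ∫ g, obs ((frozen P s).V f f1 f2 f3) Φ k s (field (frozen P s).a (frozen P s).b s g)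
        ∂gauss ((ι ⊕ ι) ⊕ (Unit ⊕ ι)) := by
  have hF := frozen_ok P hP hs
  have e : ∀ z, obs ((frozen P s).V f f1 f2 f3) Φ k s z = obs (P.V f f1 f2 f3) Φ k s z := fun z => by
    simp only [obs, rat_factor hS hP, rat_factor hS hF]
    rfl
  simp only [e]
  refine law_eq (fun v => cvec P.a P.b s v) (fun v => cvec (frozen P s).a (frozen P s).b s v) ?_
    ((BdT_obs (fam_par hS hP) Φ k).bd s).1
  rintro ⟨u, i⟩ ⟨v, j⟩
  have a1 := Real.mul_self_sqrt hs.1
  have a2 := Real.mul_self_sqrt (show 0 ≤ 1 - s by linarith [hs.2])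
  have a3 := Real.mul_self_sqrt hP.A0
  have a4 := Real.mul_self_sqrt hP.B0
  have a5 : √(s * P.A + (1 - s) * P.Bv) * √(s * P.A + (1 - s) * P.Bv) = s * P.A + (1 - s) * P.Bv :=
    Real.mul_self_sqrt hF.A0
  cases i <;> cases j <;>
    simp only [dot, cvec, Par.a, Par.b, frozen, Fintype.sum_sum_type, Sum.elim_inl, Sum.elim_inr, mul_zero,
      zero_mul, Finset.sum_const_zero, add_zero, zero_add, ← Finset.sum_add_distrib]
  refine Finset.sum_congr rfl fun m _ => ?_
  calc _ = √s * √s * (√P.A * √P.A) * (P.x u m * P.x v m)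
        + √(1 - s) * √(1 - s) * (√P.Bv * √P.Bv) * (P.x u m * P.x v m) := by ring
    _ = (√s * √s + √(1 - s) * √(1 - s)) *
        (√(s * P.A + (1 - s) * P.Bv) * √(s * P.A + (1 - s) * P.Bv)) * (P.x u m * P.x v m) := by
        rw [a1, a2, a3, a4, a5]; ring
    _ = _ := by ring

/-- pattern contribution minus cavity contribution -/
noncomputable def delta (f f1 f2 f3 : ℝ → ℝ) (s : ℝ) {n : ℕ} (Φ : (Fin n → S) → ℝ) (p p' : Fin n)
    (z : S × Bool → ℝ) : ℝ :=
  obs (P.V f f1 f2 f3) (fun σ => Φ σ * ov P (σ p) (σ p')) (kpair p p') s z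
    - Gam f f1 f2 f3 P.q * obs (P.V f f1 f2 f3) (fun σ => Φ σ * ov P (σ p) (σ p')) (fun _ => 0) s z

include hS hP

lemma integrable_delta (s : ℝ) {n : ℕ} (Φ : (Fin n → S) → ℝ) (p p' : Fin n) :
    Integrable (fun g => delta P f f1 f2 f3 s Φ p p' (field P.a P.b s g)) (gauss ((ι ⊕ ι) ⊕ (Unit ⊕ ι))) :=
  integrable_Bd P.a P.b (((BdT_obs (fam_par hS hP) _ _).sub
    ((BdT.const _).mul (BdT_obs (fam_par hS hP) _ _))).bd s) s

lemma delta_bound {lam : ℝ} (hlam : 0 ≤ lam) {n : ℕ} (hn : n ≤ 4) {p p' i j : Fin n} (hp : p ≠ p')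
    (hij : i ≠ j) {Φ : (Fin n → S) → ℝ} (hΦ : ∀ σ, |Φ σ| ≤ wex P lam (σ i) (σ j)) {s : ℝ}
    (hs : s ∈ Icc (0:ℝ) 1) :
    |∫ g, delta P f f1 f2 f3 s Φ p p' (field P.a P.b s g) ∂gauss ((ι ⊕ ι) ⊕ (Unit ⊕ ι))| ≤
      rate D B / 8 *
        ∫ g, obs (P.V f f1 f2 f3) (sqGap P lam) (fun _ => 0) s (field P.a P.b s g)
          ∂gauss ((ι ⊕ ι) ⊕ (Unit ⊕ ι)) := by
  have hV := fam_par hS hP
  unfold delta
  rw [integral_sub (integrable_Bd P.a P.b ((BdT_obs hV _ _).bd s) s)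
      ((integrable_Bd P.a P.b ((BdT_obs hV _ _).bd s) s).const_mul _), integral_const_mul,
    frozen_expect P hS hP hs, frozen_expect P hS hP hs, frozen_expect P hS hP hs]
  refine (cavity_bound (frozen P s) hS (frozen_ok P hP hs) rfl hlam hn hp hij
    (Φ := fun σ => Φ σ * ov P (σ p) (σ p')) (fun σ => ?_) hs).trans (le_of_eq ?_)
  · rw [abs_mul, mul_comm]
    exact mul_le_mul_of_nonneg_left (hΦ σ) (abs_nonneg _)
  · simp only [rate]
    rw [show 1024 * (D * D + D) ^ 2 * Real.exp (8 * B) / 8 = 128 * (D * D + D) ^ 2 * Real.exp (8 * B) by ring]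
    rfl

lemma obs_init {n : ℕ} (Φ : (Fin n → S) → ℝ) (s : ℝ) (z : S × Bool → ℝ) :
    obs (P.V f f1 f2 f3) (fun σ : Fin (n + 1) → S => Φ (Fin.init σ)) (fun _ => 0) s z =
      obs (P.V f f1 f2 f3) Φ (fun _ => 0) s z := by
  have h := obs_snoc (V := P.V f f1 f2 f3) (fun σ (_ : S) => Φ σ) (fun _ => 0) 0 s z
  rw [← Finset.sum_mul, sum_rat_zero (fam_par hS hP), one_mul] at h
  rw [h]
  congr 1
  funext l
  induction l using Fin.lastCases <;> simp

lemma gain_two (hAB : P.A - P.Bv = -Gam f f1 f2 f3 P.q) (Φ : (Fin 2 → S) → ℝ) (s : ℝ)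
    (z : S × Bool → ℝ) :
    gain (P.V f f1 f2 f3) Par.inc P.D Φ (fun _ => 0) s z =
      1 / 2 * (delta P f f1 f2 f3 s Φ 1 0 z + delta P f f1 f2 f3 s Φ 0 1 z
        - 4 * (delta P f f1 f2 f3 s (fun σ : Fin 3 → S => Φ (Fin.init σ)) 2 0 z
          + delta P f f1 f2 f3 s (fun σ : Fin 3 → S => Φ (Fin.init σ)) 2 1 z)
        + 6 * delta P f f1 f2 f3 s (fun σ : Fin 4 → S => Φ (Fin.init (Fin.init σ))) 3 2 z) := by
  set Γ := Gam f f1 f2 f3 P.q
  have hf : ∀ {m : ℕ} (F : (Fin m → S) → ℝ) (p p' : Fin m),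
      obs (P.V f f1 f2 f3) (fun σ => F σ * P.D false (σ p) (σ p')) (fun _ => 0) s z =
        -(Γ * obs (P.V f f1 f2 f3) (fun σ => F σ * ov P (σ p) (σ p')) (fun _ => 0) s z)
          - Γ * P.q * obs (P.V f f1 f2 f3) F (fun _ => 0) s z := by
    intro m F p p'
    simp only [obs, Finset.mul_sum, ← Finset.sum_neg_distrib, ← Finset.sum_sub_distrib]
    refine Finset.sum_congr rfl fun σ _ => ?_
    simp only [Par.D, ov, hAB]
    ring
  have u0 : ∀ {m : ℕ} (l : Fin m), Function.update (fun _ : Fin m => 0) l 0 = fun _ => 0 := fun l => by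
    funext a; rcases eq_or_ne a l with rfl | h <;> simp [*]
  have z3 : (Fin.snoc (fun _ : Fin 2 => 0) 0 : Fin 3 → ℕ) = fun _ => 0 := by
    funext a; fin_cases a <;> rfl
  have z4 : (Fin.snoc (fun _ : Fin 3 => 0) 0 : Fin 4 → ℕ) = fun _ => 0 := by
    funext a; fin_cases a <;> rfl
  have k01 : Function.update (Function.update (fun _ : Fin 2 => 0) 0 1) 1 1 = kpair (1 : Fin 2) 0 := by
    funext a; fin_cases a <;> rfl
  have k10 : Function.update (Function.update (fun _ : Fin 2 => 0) 1 1) 0 1 = kpair (0 : Fin 2) 1 := by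
    funext a; fin_cases a <;> rfl
  have k20 : (Fin.snoc (Function.update (fun _ : Fin 2 => 0) 0 1) 1 : Fin 3 → ℕ) = kpair (2 : Fin 3) 0 := by
    funext a; fin_cases a <;> rfl
  have k21 : (Fin.snoc (Function.update (fun _ : Fin 2 => 0) 1 1) 1 : Fin 3 → ℕ) = kpair (2 : Fin 3) 1 := by
    funext a; fin_cases a <;> rfl
  have k32 : (Fin.snoc (Fin.snoc (fun _ : Fin 2 => 0) 1) 1 : Fin 4 → ℕ) = kpair (3 : Fin 4) 2 := by
    funext a; fin_cases a <;> rfl
  have i0 : ∀ σ : Fin 3 → S, Fin.init σ 0 = σ 0 := fun σ => rfl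
  have i1 : ∀ σ : Fin 3 → S, Fin.init σ 1 = σ 1 := fun σ => rfl
  have i2 : ∀ σ : Fin 4 → S, Fin.init σ 2 = σ 2 := fun σ => rfl
  have l2 : (Fin.last 2 : Fin 3) = 2 := rfl
  have l3 : (Fin.last (2 + 1) : Fin 4) = 3 := rfl
  have hT : ∀ u v, P.D true u v = ov P u v := fun u v => rfl
  simp only [gain, Fintype.sum_bool, Fin.sum_univ_two, Par.inc, i0, i1, i2, l2, l3]
  simp only [show ((0 : Fin 2) = 1) = False by simp, show ((1 : Fin 2) = 0) = False by simp, if_true, if_false,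
    zero_add, add_zero, hT, hf, u0, z3, z4, ne_eq, Function.update_of_ne, Function.update_self,
    show ¬((1 : Fin 2) = 0) by simp, show ¬((0 : Fin 2) = 1) by simp, not_false_iff]
  rw [k01, k10, k20, k21, k32,
    obs_init P hS hP (fun σ : Fin 3 → S => Φ (Fin.init σ)), obs_init P hS hP Φ]
  simp only [delta, Γ]
  push_cast
  ring

lemma drift_bound (hAB : P.A - P.Bv = -Gam f f1 f2 f3 P.q) {lam : ℝ} (hlam : 0 ≤ lam) {s : ℝ}
    (hs : s ∈ Icc (0:ℝ) 1) :
    (∫ g, gain (P.V f f1 f2 f3) Par.inc P.D (fun σ : Fin 2 → S => wex P lam (σ 0) (σ 1)) (fun _ => 0) s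
        (field P.a P.b s g) ∂gauss ((ι ⊕ ι) ⊕ (Unit ⊕ ι))) ≤
      rate D B *
        ∫ g, obs (P.V f f1 f2 f3) (sqGap P lam) (fun _ => 0) s (field P.a P.b s g)
          ∂gauss ((ι ⊕ ι) ⊕ (Unit ⊕ ι)) := by
  set Φ := fun σ : Fin 2 → S => wex P lam (σ 0) (σ 1) with hΦdef
  have hpos : ∀ u v, |wex P lam u v| ≤ wex P lam u v := fun u v => (abs_of_pos (Real.exp_pos _)).le
  have b1 := delta_bound P hS hP hlam (p := (1 : Fin 2)) (p' := 0) (i := 0) (j := 1) (by norm_num) (by decide)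
    (by decide) (Φ := Φ) (fun σ => hpos _ _) hs
  have b2 := delta_bound P hS hP hlam (p := (0 : Fin 2)) (p' := 1) (i := 0) (j := 1) (by norm_num) (by decide)
    (by decide) (Φ := Φ) (fun σ => hpos _ _) hs
  have b3 := delta_bound P hS hP hlam (p := (2 : Fin 3)) (p' := 0) (i := 0) (j := 1) (by norm_num) (by decide)
    (by decide) (Φ := fun σ => Φ (Fin.init σ)) (fun σ => hpos _ _) hs
  have b4 := delta_bound P hS hP hlam (p := (2 : Fin 3)) (p' := 1) (i := 0) (j := 1) (by norm_num) (by decide)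
    (by decide) (Φ := fun σ => Φ (Fin.init σ)) (fun σ => hpos _ _) hs
  have b5 := delta_bound P hS hP hlam (p := (3 : Fin 4)) (p' := 2) (i := 0) (j := 1) (by norm_num) (by decide)
    (by decide) (Φ := fun σ => Φ (Fin.init (Fin.init σ))) (fun σ => hpos _ _) hs
  have j1 := integrable_delta P hS hP s Φ 1 0
  have j2 := integrable_delta P hS hP s Φ 0 1
  have j3 := integrable_delta P hS hP s (fun σ : Fin 3 → S => Φ (Fin.init σ)) 2 0
  have j4 := integrable_delta P hS hP s (fun σ : Fin 3 → S => Φ (Fin.init σ)) 2 1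
  have j5 := integrable_delta P hS hP s (fun σ : Fin 4 → S => Φ (Fin.init (Fin.init σ))) 3 2
  simp only [gain_two P hS hP hAB]
  rw [integral_const_mul, integral_add, integral_sub, integral_add, integral_const_mul, integral_add,
    integral_const_mul]
  · have := abs_le.1 b1; have := abs_le.1 b2; have := abs_le.1 b3; have := abs_le.1 b4; have := abs_le.1 b5
    linarith
  · exact j3
  · exact j4
  · exact j1
  · exact j2
  · exact j1.add j2
  · exact (j3.add j4).const_mul _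
  · exact (j1.add j2).sub ((j3.add j4).const_mul _)
  · exact j5.const_mul _

omit hS hP in
lemma obs_add {n : ℕ} (Φ Ψ : (Fin n → S) → ℝ) (k : Fin n → ℕ) (s : ℝ) (z : S × Bool → ℝ) :
    obs (P.V f f1 f2 f3) (fun σ => Φ σ + Ψ σ) k s z =
      obs (P.V f f1 f2 f3) Φ k s z + obs (P.V f f1 f2 f3) Ψ k s z := by
  simp only [obs, add_mul, Finset.sum_add_distrib]

omit hS hP in
lemma gain_decomp {n : ℕ} (Φ : (Fin n → S) → ℝ) (k : Fin n → ℕ) (s : ℝ) (z : S × Bool → ℝ) :
    gain (P.V f f1 f2 f3) Par.inc P.D Φ k s z =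
      ∑ τ, Φ τ * gain (P.V f f1 f2 f3) Par.inc P.D (fun σ => if σ = τ then 1 else 0) k s z := by
  let T : ((Fin n → S) → ℝ) →ₗ[ℝ] ℝ :=
    { toFun := fun Φ => gain (P.V f f1 f2 f3) Par.inc P.D Φ k s z
      map_add' := fun A A' => by
        have hite : ∀ (c : Prop) [Decidable c] (u v : ℝ),
            (if c then 0 else u + v) = (if c then 0 else u) + if c then 0 else v := fun c _ u v => by
          split_ifs <;> simp
        simp only [gain, Pi.add_apply, add_mul, obs_add, hite, Finset.sum_add_distrib, Finset.sum_sub_distrib,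
          ← Finset.mul_sum]
        ring
      map_smul' := fun c A => by
        simp only [gain, Pi.smul_apply, smul_eq_mul, RingHom.id_apply, mul_assoc, ← obs_smul, Finset.mul_sum,
          mul_sub, mul_add, mul_ite, mul_zero]
        refine Finset.sum_congr rfl fun j _ => ?_
        simp only [mul_left_comm c] }
  have h := T.pi_apply_eq_sum_univ Φ
  refine h.trans (Finset.sum_congr rfl fun τ _ => ?_)
  rw [smul_eq_mul]
  exact congrArg (fun F => Φ τ * T F) (funext fun σ => by simp only [eq_comm])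

end Vale.Agent.P157.RS
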